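import Vale.Agent.P240.R2.H145.EO5
import Vale.Agent.P240.R2.H275.EOS

/-!
Fields with five elements: maps on the unit vectors that preserve the squares of the values of the
form are diagonal.
-/

set_option autoImplicit false

namespace Vale.Agent.P240.R2.H306

open Matrix
open Vale.Agent.P240.R2.H145.EO

universe u v

section five

variable {K : Type u} [Field K] [Fintype K]

lemma five_zero (h : Fintype.card K = 5) : (5 : K) = 0 := by
  have h1 := FiniteField.cast_card_eq_zero K
  rw [h] at h1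
  exact_mod_cast h1

lemma five_two (h : Fintype.card K = 5) : (2 : K) ≠ 0 := by
  intro h2
  have h5 := five_zero h
  have h1 : (1 : K) = 0 := by linear_combination h5 - 2 * h2
  exact one_ne_zero h1

lemma five_three (h : Fintype.card K = 5) : (3 : K) ≠ 0 := by
  intro h2
  have h5 := five_zero h
  have h1 : (1 : K) = 0 := by linear_combination 2 * h2 - h5
  exact one_ne_zero h1

lemma five_cases (h : Fintype.card K = 5) (x : K) :
    x = 0 ∨ x = 1 ∨ x = 2 ∨ x = 3 ∨ x = 4 := by
  have h5 := five_zero h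
  have hx : x ^ 5 = x := by
    have h1 := FiniteField.pow_card x
    rwa [h] at h1
  have h1 : x * ((x - 1) * ((x - 2) * ((x - 3) * (x - 4)))) = 0 := by
    linear_combination hx + (-2 * x ^ 4 + 7 * x ^ 3 - 10 * x ^ 2 + 5 * x) * h5
  rcases mul_eq_zero.1 h1 with h2 | h2
  · exact Or.inl h2
  rcases mul_eq_zero.1 h2 with h2 | h2
  · exact Or.inr (Or.inl (sub_eq_zero.1 h2))
  rcases mul_eq_zero.1 h2 with h2 | h2
  · exact Or.inr (Or.inr (Or.inl (sub_eq_zero.1 h2)))
  rcases mul_eq_zero.1 h2 with h2 | h2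
  · exact Or.inr (Or.inr (Or.inr (Or.inl (sub_eq_zero.1 h2))))
  · exact Or.inr (Or.inr (Or.inr (Or.inr (sub_eq_zero.1 h2))))

lemma five_sq (h : Fintype.card K = 5) (x : K) : x ^ 2 = 0 ∨ x ^ 2 = 1 ∨ x ^ 2 = 4 := by
  have h5 := five_zero h
  rcases five_cases h x with rfl | rfl | rfl | rfl | rfl
  · left; ring
  · right; left; ring
  · right; right; ring
  · right; right; linear_combination h5
  · right; left; linear_combination 3 * h5

omit [Fintype K] in
lemma five_pm {x : K} (hx : x ^ 2 = 1) : x = 1 ∨ x = -1 := by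
  have h1 : (x - 1) * (x + 1) = 0 := by linear_combination hx
  rcases mul_eq_zero.1 h1 with h2 | h2
  · exact Or.inl (sub_eq_zero.1 h2)
  · exact Or.inr (eq_neg_of_add_eq_zero_left h2)

end five

section rel

variable {K : Type u} [Field K] {n : ℕ} {a : Fin n → K}

/-- the vector with at most three nonzero coordinates -/
def w3 (i j k : Fin n) (p q r : K) : Fin n → K :=
  Pi.single i p + Pi.single j q + Pi.single k r

lemma B_w3 (i j k : Fin n) (p q r : K) (y : Fin n → K) :
    B a (w3 i j k p q r) y = a i * p * y i + a j * q * y j + a k * r * y k := by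
  unfold w3
  rw [B_add_left, B_add_left, B_single, B_single, B_single]

lemma w3_i {i j k : Fin n} (hij : i ≠ j) (hik : i ≠ k) (p q r : K) : w3 i j k p q r i = p := by
  simp [w3, hij, hik]

lemma w3_j {i j k : Fin n} (hij : i ≠ j) (hjk : j ≠ k) (p q r : K) : w3 i j k p q r j = q := by
  simp [w3, hij.symm, hjk]

lemma w3_k {i j k : Fin n} (hik : i ≠ k) (hjk : j ≠ k) (p q r : K) : w3 i j k p q r k = r := by
  simp [w3, hik.symm, hjk.symm]

lemma w3_ne {i j k m : Fin n} (hi : m ≠ i) (hj : m ≠ j) (hk : m ≠ k) (p q r : K) :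
    w3 i j k p q r m = 0 := by
  simp [w3, hi, hj, hk]

/-- the map on the unit vectors preserves the squares of the values of the form and of the
coordinates -/
structure SqP (a : Fin n → K) (f : (Fin n → K) → Fin n → K) : Prop where
  unit : ∀ y, B a y y = 1 → B a (f y) (f y) = 1
  sq : ∀ y z, B a y y = 1 → B a z z = 1 → B a (f y) (f z) ^ 2 = B a y z ^ 2
  co : ∀ y, B a y y = 1 → ∀ i, f y i ^ 2 = y i ^ 2

variable {f : (Fin n → K) → Fin n → K}

/-- the relative sign of two coordinates -/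
def Rel (a : Fin n → K) (f : (Fin n → K) → Fin n → K) (i j : Fin n) (c : K) : Prop :=
  c ^ 2 = 1 ∧ ∀ y, B a y y = 1 → f y i * f y j = c * (y i * y j)

lemma Rel.symm {i j : Fin n} {c : K} (h : Rel a f i j c) : Rel a f j i c :=
  ⟨h.1, fun y hy => by rw [mul_comm, h.2 y hy, mul_comm (y i)]⟩

lemma rel_self (hf : SqP a f) (i : Fin n) : Rel a f i i 1 :=
  ⟨one_pow 2, fun y hy => by
    have h1 := hf.co y hy i
    linear_combination h1⟩

lemma SqP.eq_w3 (hf : SqP a f) {i j k : Fin n} {p q r : K} (hij : i ≠ j) (hik : i ≠ k)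
    (hjk : j ≠ k) (hw : B a (w3 i j k p q r) (w3 i j k p q r) = 1) :
    ∃ p' q' r' : K, p' ^ 2 = p ^ 2 ∧ q' ^ 2 = q ^ 2 ∧ r' ^ 2 = r ^ 2 ∧
      f (w3 i j k p q r) = w3 i j k p' q' r' := by
  have h := hf.co _ hw
  refine ⟨f (w3 i j k p q r) i, f (w3 i j k p q r) j, f (w3 i j k p q r) k, ?_, ?_, ?_, ?_⟩
  · rw [h i, w3_i hij hik]
  · rw [h j, w3_j hij hjk]
  · rw [h k, w3_k hik hjk]
  · funext m
    by_cases hi : m = i
    · subst hi; rw [w3_i hij hik]
    by_cases hj : m = j
    · subst hj; rw [w3_j hij hjk]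
    by_cases hk : m = k
    · subst hk; rw [w3_k hik hjk]
    · rw [w3_ne hi hj hk]
      have h1 := h m
      rw [w3_ne hi hj hk, zero_pow two_ne_zero] at h1
      exact pow_eq_zero_iff two_ne_zero |>.1 h1

/-- the cocycle relation -/
lemma Rel.mul {i j k : Fin n} {c c' c'' : K} (h : Rel a f i j c) (h' : Rel a f j k c')
    (h'' : Rel a f i k c'') (hf : SqP a f) {y : Fin n → K} (hy : B a y y = 1) (hi : y i ≠ 0)
    (hj : y j ≠ 0) (hk : y k ≠ 0) : c'' = c * c' := by
  have e1 := h.2 y hy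
  have e2 := h'.2 y hy
  have e3 := h''.2 y hy
  have e4 := hf.co y hy j
  have h0 : y i * y j ^ 2 * y k ≠ 0 := mul_ne_zero (mul_ne_zero hi (pow_ne_zero 2 hj)) hk
  apply mul_right_cancel₀ h0
  have e5 : (f y i * f y j) * (f y j * f y k) = (f y i * f y k) * f y j ^ 2 := by ring
  rw [e1, e2, e3, e4] at e5
  linear_combination -e5

end rel

section main

variable {K : Type u} [Field K] [Fintype K] {n : ℕ} {a : Fin n → K}
variable {f : (Fin n → K) → Fin n → K}

/-- two coordinates of square norm -/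
lemma rel_sq (h : Fintype.card K = 5) (hf : SqP a f) (ha : ∀ i, a i ≠ 0) {i j k : Fin n}
    {s t r : K} (hij : i ≠ j) (hik : i ≠ k) (hjk : j ≠ k) (hi : a i * s ^ 2 = 1)
    (hj : a j * t ^ 2 = 1) (hk : a k * r ^ 2 = 1) : ∃ c, Rel a f i j c := by
  have h5 := five_zero h
  have h2 := five_two h
  have h3 := five_three h
  have hw : B a (w3 i j k s t (2 * r)) (w3 i j k s t (2 * r)) = 1 := by
    rw [B_w3, w3_i hij hik, w3_j hij hjk, w3_k hik hjk]
    linear_combination hi + hj + 4 * hk + h5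
  have hw' : B a (w3 i j k s t (-(2 * r))) (w3 i j k s t (-(2 * r))) = 1 := by
    rw [B_w3, w3_i hij hik, w3_j hij hjk, w3_k hik hjk]
    linear_combination hi + hj + 4 * hk + h5
  obtain ⟨p, q, z, hp, hq, hz, e1⟩ := hf.eq_w3 hij hik hjk hw
  obtain ⟨p', q', z', hp', hq', hz', e1'⟩ := hf.eq_w3 hij hik hjk hw'
  have e2 := hf.sq _ _ hw hw'
  rw [e1, e1', B_w3, B_w3, w3_i hij hik, w3_j hij hjk, w3_k hik hjk, w3_i hij hik, w3_j hij hjk,
    w3_k hik hjk] at e2
  have e3 : (a i * s * s + a j * t * t + a k * (2 * r) * (-(2 * r))) ^ 2 = 4 := by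
    have : a i * s * s + a j * t * t + a k * (2 * r) * (-(2 * r)) = -2 := by
      linear_combination hi + hj - 4 * hk
    rw [this]; norm_num
  rw [e3] at e2
  have hu : (a i * p * p') ^ 2 = 1 := by
    have : (a i * p * p') ^ 2 = (a i) ^ 2 * p ^ 2 * p' ^ 2 := by ring
    rw [this, hp, hp']
    linear_combination (a i * s ^ 2 + 1) * hi
  have hv : (a j * q * q') ^ 2 = 1 := by
    have : (a j * q * q') ^ 2 = (a j) ^ 2 * q ^ 2 * q' ^ 2 := by ring
    rw [this, hq, hq']
    linear_combination (a j * t ^ 2 + 1) * hj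
  have hx : (a k * z * z') ^ 2 = 1 := by
    have : (a k * z * z') ^ 2 = (a k) ^ 2 * z ^ 2 * z' ^ 2 := by ring
    rw [this, hz, hz']
    linear_combination 16 * (a k * r ^ 2 + 1) * hk + 3 * h5
  generalize hU : a i * p * p' = U at e2 hu
  generalize hV : a j * q * q' = V at e2 hv
  generalize hX : a k * z * z' = X at e2 hx
  have key : V = U ∧ X = U := by
    have h41 : (3 : K) = 0 → False := fun h => h3 h
    rcases five_pm hu with rfl | rfl <;> rcases five_pm hv with rfl | rfl <;>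
      rcases five_pm hx with rfl | rfl
    · exact ⟨rfl, rfl⟩
    · exact (h41 (by linear_combination -e2)).elim
    · exact (h41 (by linear_combination -e2)).elim
    · exact (h41 (by linear_combination -e2)).elim
    · exact (h41 (by linear_combination -e2)).elim
    · exact (h41 (by linear_combination -e2)).elim
    · exact (h41 (by linear_combination -e2)).elim
    · exact ⟨rfl, rfl⟩
  obtain ⟨hVU, hXU⟩ := key
  rw [hVU] at hV
  rw [hXU] at hX
  clear hv hx e2 hXU hVU V X
  have p1 : p' = U * p := by linear_combination (-p') * hi + a i * p' * (-1) * hp + p * hU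
  have q1 : q' = U * q := by linear_combination (-q') * hj + a j * q' * (-1) * hq + q * hV
  have z1 : z' = -U * z := by
    linear_combination -z * hX + a k * z' * hz + 4 * z' * hk + z' * h5
  refine ⟨a i * a j * (p * q) * (s * t), ?_, fun y hy => ?_⟩
  · linear_combination (a i * a j * (s * t)) ^ 2 * (q ^ 2 * hp + s ^ 2 * hq) +
      a j ^ 2 * t ^ 4 * (a i * s ^ 2 + 1) * hi + (a j * t ^ 2 + 1) * hj
  · have e4 := hf.sq _ _ hw hy
    have e5 := hf.sq _ _ hw' hy
    rw [e1, B_w3, B_w3] at e4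
    rw [e1', B_w3, B_w3, p1, q1, z1] at e5
    have ci := hf.co y hy i
    have cj := hf.co y hy j
    have ck := hf.co y hy k
    have h4 : (4 : K) ≠ 0 := by
      have : (4 : K) = 2 * 2 := by norm_num
      rw [this]; exact mul_ne_zero h2 h2
    have h6 : p * q * (f y i * f y j) = s * t * (y i * y j) := by
      have h7 : 4 * (a i * a j) ≠ 0 := mul_ne_zero h4 (mul_ne_zero (ha i) (ha j))
      apply mul_left_cancel₀ h7
      linear_combination e4 + e5 - (a i * p * f y i + a j * q * f y j - a k * z * f y k) ^ 2 * hu -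
        2 * a i ^ 2 * (p ^ 2 * ci + y i ^ 2 * hp) - 2 * a j ^ 2 * (q ^ 2 * cj + y j ^ 2 * hq) -
        2 * a k ^ 2 * (z ^ 2 * ck + y k ^ 2 * hz)
    linear_combination a i * a j * (p * q) * h6 - f y i * f y j *
      (a i * a j * (q ^ 2 * hp + s ^ 2 * hq) + a j * t ^ 2 * hi + hj)

/-- a coordinate of square norm and a coordinate of nonsquare norm -/
lemma rel_ns (h : Fintype.card K = 5) (hf : SqP a f) (ha : ∀ i, a i ≠ 0) {i j k : Fin n}
    {s t : K} (hij : i ≠ j) (hik : i ≠ k) (hjk : j ≠ k) (hi : a i * s ^ 2 = 1)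
    (hj : a j * t ^ 2 = 2) : ∃ c, Rel a f i j c := by
  have h5 := five_zero h
  have h2 := five_two h
  have h3 := five_three h
  have hw : B a (w3 i j k (2 * s) t 0) (w3 i j k (2 * s) t 0) = 1 := by
    rw [B_w3, w3_i hij hik, w3_j hij hjk, w3_k hik hjk]
    linear_combination 4 * hi + hj + h5
  have hw' : B a (w3 i j k (2 * s) (-t) 0) (w3 i j k (2 * s) (-t) 0) = 1 := by
    rw [B_w3, w3_i hij hik, w3_j hij hjk, w3_k hik hjk]
    linear_combination 4 * hi + hj + h5
  obtain ⟨p, q, z, hp, hq, hz, e1⟩ := hf.eq_w3 hij hik hjk hw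
  obtain ⟨p', q', z', hp', hq', hz', e1'⟩ := hf.eq_w3 hij hik hjk hw'
  have z0 : z = 0 := by
    rw [zero_pow two_ne_zero] at hz
    exact pow_eq_zero_iff two_ne_zero |>.1 hz
  have z0' : z' = 0 := by
    rw [zero_pow two_ne_zero] at hz'
    exact pow_eq_zero_iff two_ne_zero |>.1 hz'
  subst z0 z0'
  have e2 := hf.sq _ _ hw hw'
  rw [e1, e1', B_w3, B_w3, w3_i hij hik, w3_j hij hjk, w3_k hik hjk, w3_i hij hik, w3_j hij hjk,
    w3_k hik hjk] at e2
  have e3 : (a i * (2 * s) * (2 * s) + a j * t * (-t) + a k * 0 * 0) ^ 2 = 4 := by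
    have : a i * (2 * s) * (2 * s) + a j * t * (-t) + a k * 0 * 0 = 2 := by
      linear_combination 4 * hi - hj
    rw [this]; norm_num
  rw [e3] at e2
  have hu : (a i * p * p') ^ 2 = 1 := by
    have : (a i * p * p') ^ 2 = (a i) ^ 2 * p ^ 2 * p' ^ 2 := by ring
    rw [this, hp, hp']
    linear_combination 16 * (a i * s ^ 2 + 1) * hi + 3 * h5
  have hv : (a j * q * q') ^ 2 = 4 := by
    have : (a j * q * q') ^ 2 = (a j) ^ 2 * q ^ 2 * q' ^ 2 := by ring
    rw [this, hq, hq']
    linear_combination (a j * t ^ 2 + 2) * hj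
  generalize hU : a i * p * p' = U at e2 hu
  generalize hV : a j * q * q' = V at e2 hv
  have huv : V = 2 * U := by
    have h6 : 2 * (U * V) = 2 * 2 := by linear_combination e2 - hu - hv - h5
    have h7 := mul_left_cancel₀ h2 h6
    linear_combination U * h7 - V * hu
  have p1 : p' = -U * p := by
    linear_combination -p * hU + a i * p' * hp + 4 * p' * hi + p' * h5
  have q1 : q' = U * q := by
    apply mul_left_cancel₀ h2
    linear_combination q * hV + q * huv - a j * q' * hq - q' * hj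
  refine ⟨-(a i * a j * (p * q) * (s * t)), ?_, fun y hy => ?_⟩
  · linear_combination (a i * a j * (s * t)) ^ 2 * (q ^ 2 * hp + 4 * s ^ 2 * hq) +
      4 * a j ^ 2 * t ^ 4 * (a i * s ^ 2 + 1) * hi + 4 * (a j * t ^ 2 + 2) * hj + 3 * h5
  · have e4 := hf.sq _ _ hw hy
    have e5 := hf.sq _ _ hw' hy
    rw [e1, B_w3, B_w3] at e4
    rw [e1', B_w3, B_w3, p1, q1] at e5
    have h4 : (4 : K) ≠ 0 := by
      have : (4 : K) = 2 * 2 := by norm_num
      rw [this]; exact mul_ne_zero h2 h2
    have h6 : p * q * (f y i * f y j) = 2 * s * t * (y i * y j) := by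
      have h7 : 4 * (a i * a j) ≠ 0 := mul_ne_zero h4 (mul_ne_zero (ha i) (ha j))
      apply mul_left_cancel₀ h7
      linear_combination e4 - e5 + (a i * p * f y i - a j * q * f y j) ^ 2 * hu
    linear_combination 2 * a i * a j * (p * q) * h6 - f y i * f y j *
      (2 * a i * a j * (q ^ 2 * hp + 4 * s ^ 2 * hq) + 8 * a j * t ^ 2 * hi + 8 * hj + 3 * h5) +
      a i * a j * (p * q) * (s * t) * (y i * y j) * h5

omit [Fintype K] in
lemma exists_third (hn : 6 ≤ n) (i j : Fin n) : ∃ k : Fin n, k.val + 1 < n ∧ k ≠ i ∧ k ≠ j := by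
  have h0 : ∀ m : ℕ, ∀ hm : m < n, ∀ l : Fin n, l.val ≠ m → (⟨m, hm⟩ : Fin n) ≠ l := by
    intro m hm l hl h
    apply hl
    rw [← h]
  by_cases c0 : i.val = 0 ∨ j.val = 0
  · by_cases c1 : i.val = 1 ∨ j.val = 1
    · refine ⟨⟨2, by omega⟩, ?_, h0 _ _ _ ?_, h0 _ _ _ ?_⟩
      · show 2 + 1 < n; omega
      · omega
      · omega
    · refine ⟨⟨1, by omega⟩, ?_, h0 _ _ _ ?_, h0 _ _ _ ?_⟩
      · show 1 + 1 < n; omega
      · omega
      · omega
  · refine ⟨⟨0, by omega⟩, ?_, h0 _ _ _ ?_, h0 _ _ _ ?_⟩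
    · show 0 + 1 < n; omega
    · omega
    · omega

/-- a scaling of the norm -/
lemma exists_scale (h : Fintype.card K = 5) {d : K} (hd : d ≠ 0) :
    (∃ t : K, t ≠ 0 ∧ d * t ^ 2 = 1) ∨ (∃ t z : K, t ≠ 0 ∧ z ≠ 0 ∧ d * t ^ 2 = 2 ∧ d * z ^ 2 = 3) := by
  have h5 := five_zero h
  have h2 := five_two h
  rcases five_cases h d with rfl | rfl | rfl | rfl | rfl
  · exact absurd rfl hd
  · exact Or.inl ⟨1, one_ne_zero, by ring⟩
  · exact Or.inr ⟨1, 2, one_ne_zero, h2, by ring, by linear_combination h5⟩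
  · exact Or.inr ⟨2, 1, h2, one_ne_zero, by linear_combination 2 * h5, by ring⟩
  · exact Or.inl ⟨2, h2, by linear_combination 3 * h5⟩

lemma rel_all (h : Fintype.card K = 5) (hn : 6 ≤ n) (ha : ∀ i, a i ≠ 0)
    (ha1 : ∀ i : Fin n, i.val + 1 < n → a i = 1) (hf : SqP a f) (i j : Fin n) :
    ∃ c, Rel a f i j c := by
  by_cases hij : i = j
  · subst hij
    exact ⟨1, rel_self hf i⟩
  obtain ⟨k, hk, hki, hkj⟩ := exists_third hn i j
  have main : ∀ i j : Fin n, i ≠ j → k ≠ i → k ≠ j → i.val + 1 < n → ∃ c, Rel a f i j c := by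
    intro i j hij hki hkj hi
    rcases exists_scale h (ha j) with ⟨t, _, ht⟩ | ⟨t, _, _, _, ht, _⟩
    · exact rel_sq h hf ha hij hki.symm hkj.symm (s := 1) (t := t) (r := 1)
        (by rw [ha1 i hi]; ring) ht (by rw [ha1 k hk]; ring)
    · exact rel_ns h hf ha hij hki.symm hkj.symm (s := 1) (t := t)
        (by rw [ha1 i hi]; ring) ht
  by_cases hi : i.val + 1 < n
  · exact main i j hij hki hkj hi
  · have hj : j.val + 1 < n := by
      have h1 := i.2
      have h2 := j.2
      by_contra h3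
      exact hij (Fin.ext (by omega))
    obtain ⟨c, hc⟩ := main j i (Ne.symm hij) hkj hki hj
    exact ⟨c, hc.symm⟩

/-- a unit vector with three nonzero coordinates -/
lemma exists_u3 (h : Fintype.card K = 5) (ha : ∀ i, a i ≠ 0)
    (ha1 : ∀ i : Fin n, i.val + 1 < n → a i = 1) {i j k : Fin n} (hij : i ≠ j) (hik : i ≠ k)
    (hjk : j ≠ k) (hi : i.val + 1 < n) (hj : j.val + 1 < n) :
    ∃ y, B a y y = 1 ∧ y i ≠ 0 ∧ y j ≠ 0 ∧ y k ≠ 0 := by
  have h5 := five_zero h
  have h2 := five_two h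
  rcases exists_scale h (ha k) with ⟨t, t0, ht⟩ | ⟨t, z, t0, z0, ht, hz⟩
  · refine ⟨w3 i j k 1 1 (2 * t), ?_, ?_, ?_, ?_⟩
    · rw [B_w3, w3_i hij hik, w3_j hij hjk, w3_k hik hjk, ha1 i hi, ha1 j hj]
      linear_combination 4 * ht + h5
    · rw [w3_i hij hik]; exact one_ne_zero
    · rw [w3_j hij hjk]; exact one_ne_zero
    · rw [w3_k hik hjk]; exact mul_ne_zero h2 t0
  · refine ⟨w3 i j k 2 2 z, ?_, ?_, ?_, ?_⟩
    · rw [B_w3, w3_i hij hik, w3_j hij hjk, w3_k hik hjk, ha1 i hi, ha1 j hj]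
      linear_combination hz + 2 * h5
    · rw [w3_i hij hik]; exact h2
    · rw [w3_j hij hjk]; exact h2
    · rw [w3_k hik hjk]; exact z0

/-- maps on the unit vectors that preserve the squares of the values of the form -/
theorem wig5 (h : Fintype.card K = 5) (hn : 6 ≤ n) (ha : ∀ i, a i ≠ 0)
    (ha1 : ∀ i : Fin n, i.val + 1 < n → a i = 1) (hf : SqP a f) :
    ∃ c : Fin n → K, (∀ i, c i ^ 2 = 1) ∧ ∀ y, B a y y = 1 → PM (fun i => c i * y i) (f y) := by
  choose γ hγ using rel_all h hn ha ha1 hf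
  let o : Fin n := ⟨0, by omega⟩
  have ho : o.val + 1 < n := by show 0 + 1 < n; omega
  have hoo : γ o o = 1 := by
    have h1 : B a (Pi.single o 1) (Pi.single o 1 : Fin n → K) = 1 := by
      rw [B_e ha1 ho, Pi.single_eq_same]
    have h2 := (hγ o o).2 _ h1
    have h3 := hf.co _ h1 o
    rw [Pi.single_eq_same] at h2 h3
    linear_combination h3 - h2
  have key : ∀ i j, Rel a f i j (γ o i * γ o j) := by
    intro i j
    by_cases hij : i = j
    · subst hij
      have h1 := rel_self hf i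
      have h2 : γ o i * γ o i = 1 := by
        have := (hγ o i).1
        rwa [pow_two] at this
      rw [h2]
      exact h1
    by_cases hi : i = o
    · rw [hi, hoo, one_mul]
      exact hγ o j
    by_cases hj : j = o
    · rw [hj, hoo, mul_one]
      exact (hγ o i).symm
    have hex : ∃ y, B a y y = 1 ∧ y o ≠ 0 ∧ y i ≠ 0 ∧ y j ≠ 0 := by
      by_cases hi1 : i.val + 1 < n
      · exact exists_u3 h ha ha1 (Ne.symm hi) (Ne.symm hj) hij ho hi1
      · have hj1 : j.val + 1 < n := by
          have h1 := i.2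
          have h2 := j.2
          by_contra h3
          exact hij (Fin.ext (by omega))
        obtain ⟨y, h1, h2, h3, h4⟩ := exists_u3 h ha ha1 (Ne.symm hj) (Ne.symm hi) (Ne.symm hij)
          ho hj1
        exact ⟨y, h1, h2, h4, h3⟩
    obtain ⟨y, hy, h1, h2, h3⟩ := hex
    have h4 := (hγ o i).symm.mul (hγ o j) (hγ i j) hf hy h2 h1 h3
    rw [← h4]
    exact hγ i j
  refine ⟨fun i => γ o i, fun i => (hγ o i).1, fun y hy => ?_⟩
  have hy0 : ∃ i, y i ≠ 0 := by
    by_contra hc
    push Not at hc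
    have : y = 0 := funext hc
    rw [this] at hy
    simp [B] at hy
  obtain ⟨i, hi⟩ := hy0
  have h1 := hf.co y hy i
  have h2 : (f y i - γ o i * y i) * (f y i + γ o i * y i) = 0 := by
    linear_combination h1 - y i ^ 2 * (hγ o i).1
  have hc1 := (hγ o i).1
  rcases mul_eq_zero.1 h2 with h3 | h3
  · left
    funext j
    have h4 := (key i j).2 y hy
    apply mul_left_cancel₀ hi
    show y i * f y j = y i * (γ o j * y j)
    linear_combination γ o i * h4 - γ o i * f y j * h3 + (y i * γ o j * y j - y i * f y j) * hc1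
  · right
    funext j
    have h4 := (key i j).2 y hy
    apply mul_left_cancel₀ hi
    show y i * f y j = y i * -(γ o j * y j)
    linear_combination -γ o i * h4 + γ o i * f y j * h3 + (-(y i * γ o j * y j) - y i * f y j) * hc1

end main

end Vale.Agent.P240.R2.H306
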