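import Vale.Agent.P240.R2.H145.EO6
import Vale.Agent.P240.R2.H306.W5

/-!
Fields with five elements: connectedness of the graph of unit vectors, and the map on the unit
vectors.
-/

set_option autoImplicit false

namespace Vale.Agent.P240.R2.H306

open Matrix
open Vale.Agent.P240.R2.H145.EO

universe u v

/-- connectedness of the graph of unit vectors over `K` -/
def ConnK (K : Type u) [Field K] : Prop :=
  ∀ (n : ℕ) (a : Fin n → K), (∀ i, a i ≠ 0) → (∀ i : Fin n, i.val + 1 < n → a i = 1) →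
    ∀ (k : ℕ), k + 4 ≤ n → ∀ (x : Fin k → Fin n → K), ON a x →
    ∀ (T : Type u) (F : (Fin n → K) → T),
    (∀ y z, B a y y = 1 → B a z z = 1 → (∀ i, B a (x i) y = 0) → (∀ i, B a (x i) z = 0) →
      B a y z = 0 → F y = F z) →
    ∀ y z : Fin n → K, B a y y = 1 → B a z z = 1 → (∀ i, B a (x i) y = 0) →
      (∀ i, B a (x i) z = 0) → F y = F z

theorem connK {K : Type u} [Field K] [Fintype K] (h : Fintype.card K = 5) : ConnK K := by
  intro n a ha ha1 k hk x hx T F hF y z hy hz hxy hxz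
  have h2 := five_two h
  have h5 := five_zero h
  -- the first case
  have case1 : ∀ y z : Fin n → K, B a y y = 1 → B a z z = 1 → (∀ i, B a (x i) y = 0) →
      (∀ i, B a (x i) z = 0) → B a y z ^ 2 ≠ 1 → F y = F z := by
    intro y z hy hz hxy hxz hyz
    obtain ⟨w, hw, hxw, hyw, hzw⟩ := exists_common h2 ha ha1 hk hx hy hz hxy hxz hyz
    rw [hF y w hy hw hxy hxw hyw, hF z w hz hw hxz hxw hzw]
  by_cases hyz : B a y z ^ 2 = 1
  · -- an intermediate vector
    obtain ⟨D, hD, hxD, hyD, hzD⟩ : ∃ D : Fin n → K, B a D D = 1 ∧ (∀ i, B a (x i) D = 0) ∧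
        B a y D = 0 ∧ B a D z ^ 2 ≠ 1 := by
      have hs := hx.snoc hxy hy
      obtain ⟨D1, h1, h11⟩ := perp1 h2 ha ha1 (k := k + 1) (by omega) hs (one_ne_zero (α := K))
      have x1 : ∀ i, B a (x i) D1 = 0 := by
        intro i
        have := h1 i.castSucc
        rwa [Fin.snoc_castSucc] at this
      have y1 : B a y D1 = 0 := by
        have := h1 (Fin.last k)
        rwa [Fin.snoc_last] at this
      by_cases c1 : B a D1 z ^ 2 = 1
      · set β := B a D1 z with hβ
        set c := B a y z with hc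
        have y1' : B a D1 y = 0 := by rw [B_comm]; exact y1
        have zy : B a z y = c := by rw [B_comm]
        have zD : B a z D1 = β := by rw [B_comm]
        refine ⟨(2 * β) • D1 - (2 : K) • (z - c • y), ?_, fun i => ?_, ?_, ?_⟩
        · simp only [B_sub_left, B_sub_right, B_smul_left, B_smul_right, h11, hz, hy, ← hβ, ← hc,
            zy, zD, y1, y1']
          linear_combination -4 * c1 - 4 * hyz - h5
        · simp only [B_sub_right, B_smul_right, x1, hxz, hxy]
          ring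
        · simp only [B_sub_right, B_smul_right, y1, hy, ← hc]
          ring
        · simp only [B_sub_left, B_smul_left, ← hβ, ← hc, hz]
          have h6 : 2 * β * β - 2 * (1 - c * c) = 2 := by linear_combination 2 * c1 + 2 * hyz
          rw [h6]
          intro h7
          exact five_three h (by linear_combination h7)
      · exact ⟨D1, h11, x1, y1, c1⟩
    rw [hF y D hy hD hxy hxD hyD, case1 D z hD hz hxD hxz hzD]
  · exact case1 y z hy hz hxy hxz hyz

section main

variable {K : Type u} [Field K] [Fintype K] {n : ℕ} {a : Fin n → K}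
variable {S : Subgroup (GL (Fin n) K)}
variable {G : Type v} [Group G] {ε : S →* G} {x : G} {τ : S → S}
variable (hc : ConnK K)
include hc

lemma indepA (D : Dat a ε x τ) {P Q R R' : Fin n → K} (hP : B a P P = 1) (hQ : B a Q Q = 1)
    (hPQ : B a P Q = 0) (hR : B a R R = 1) (hPR : B a P R = 0) (hQR : B a Q R = 0)
    (hR' : B a R' R' = 1) (hPR' : B a P R' = 0) (hQR' : B a Q R' = 0) :
    Phi D.hn τ P Q R = Phi D.hn τ P Q R' := by
  refine hc n a D.ha D.ha1 2 (by have := D.hn; omega) ![P, Q] (on2 hP hQ hPQ) _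
    (fun R => Phi D.hn τ P Q R) ?_ R R' hR hR' ?_ ?_
  · intro y z hy hz hxy hxz hyz
    exact Phi_tri D (on4 hP hQ hy hz hPQ (hxy 0) (hxy 1) (hxz 0) (hxz 1) hyz)
  · intro i
    fin_cases i
    · exact hPR
    · exact hQR
  · intro i
    fin_cases i
    · exact hPR'
    · exact hQR'

lemma indep (D : Dat a ε x τ) {P Q R Q' R' : Fin n → K} (hP : B a P P = 1) (hQ : B a Q Q = 1)
    (hPQ : B a P Q = 0) (hR : B a R R = 1) (hPR : B a P R = 0) (hQR : B a Q R = 0)
    (hQ' : B a Q' Q' = 1) (hPQ' : B a P Q' = 0)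
    (hR' : B a R' R' = 1) (hPR' : B a P R' = 0) (hQR' : B a Q' R' = 0) :
    Phi D.hn τ P Q R = Phi D.hn τ P Q' R' := by
  let F : (Fin n → K) → Set (Fin n → K) := fun Q =>
    {Y | ∃ R, B a R R = 1 ∧ B a P R = 0 ∧ B a Q R = 0 ∧ Y ∈ Phi D.hn τ P Q R}
  have hF : ∀ Q R, B a Q Q = 1 → B a P Q = 0 → B a R R = 1 → B a P R = 0 → B a Q R = 0 →
      F Q = Phi D.hn τ P Q R := by
    intro Q R hQ hPQ hR hPR hQR
    ext Y
    constructor
    · rintro ⟨R1, h1, h2, h3, h4⟩
      rwa [indepA hc D hP hQ hPQ hR hPR hQR h1 h2 h3]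
    · intro hY
      exact ⟨R, hR, hPR, hQR, hY⟩
  rw [← hF Q R hQ hPQ hR hPR hQR, ← hF Q' R' hQ' hPQ' hR' hPR' hQR']
  refine hc n a D.ha D.ha1 1 (by have := D.hn; omega) ![P] (on1 hP) _ F ?_ Q Q' hQ hQ'
    ?_ ?_
  · intro y z hy hz hxy hxz hyz
    have hPy : B a P y = 0 := hxy 0
    have hPz : B a P z = 0 := hxz 0
    rw [hF y z hy hPy hz hPz hyz, hF z y hz hPz hy hPy (by rw [B_comm]; exact hyz)]
    exact Phi_symm D (on3 hP hy hz hPy hPz hyz)
  · intro i
    fin_cases i
    exact hPQ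
  · intro i
    fin_cases i
    exact hPQ'

/-- the image of a line depends on the line only -/
lemma line_wd (D : Dat a ε x τ) {g g' : S} {i i' : Fin n} (hi : i.val + 1 < n)
    (hi' : i'.val + 1 < n) (h : PM (ac g.1 (e i)) (ac g'.1 (e i'))) :
    PM (ac (τ g).1 (e i)) (ac (τ g').1 (e i')) := by
  obtain ⟨j, k, hj, hk, hij, hik, hjk⟩ := exists_jk D.hn i
  obtain ⟨j', k', hj', hk', hij', hik', hjk'⟩ := exists_jk D.hn i'
  have hu : ∀ (g : S) {l : Fin n}, l.val + 1 < n → B a (ac g.1 (e l)) (ac g.1 (e l)) = 1 :=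
    fun g l hl => by rw [OD_B (D.le g.2), e_self D hl]
  have ho : ∀ (g : S) {l m : Fin n}, l ≠ m → B a (ac g.1 (e l)) (ac g.1 (e m)) = 0 :=
    fun g l m hlm => by rw [OD_B (D.le g.2), e_ne hlm]
  rw [← pm_eq, ← Phi_gen D hi hj hk hij hik hjk (PM.refl _) (PM.refl _) (PM.refl _),
    ← Phi_gen D hi' hj' hk' hij' hik' hjk' h.symm (PM.refl _) (PM.refl _)]
  exact indep hc D (hu g hi) (hu g hj) (ho g hij) (hu g hk) (ho g hik) (ho g hjk) (hu g' hj')
    (h.symm.B_zero.2 (ho g' hij')) (hu g' hk') (h.symm.B_zero.2 (ho g' hik')) (ho g' hjk')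

lemma ff_spec (D : Dat a ε x τ) {P : Fin n → K}
    {g : S} {i : Fin n} (hi : i.val + 1 < n) (h : PM (ac g.1 (e i)) P) :
    PM (ac (τ g).1 (e i)) (ff D.hn τ P) := by
  have hP : B a P P = 1 := by rw [h.B_self, OD_B (D.le g.2), e_self D hi]
  have hex := exists_g1 D hP
  unfold ff
  rw [dif_pos hex]
  exact line_wd hc D hi (ix_lt _ _) (h.trans hex.choose_spec.symm)

lemma ff_unit (D : Dat a ε x τ) {y : Fin n → K}
    (hy : B a y y = 1) : B a (ff D.hn τ y) (ff D.hn τ y) = 1 := by
  obtain ⟨g, hg⟩ := exists_g1 D hy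
  rw [(ff_spec hc D (ix_lt _ _) hg).B_self, OD_B (D.le (τ g).2), e_self D (ix_lt _ _)]

/-- the image of the product of two reflections, orthogonal case -/
lemma conj_orth (D : Dat a ε x τ) {y z : Fin n → K}
    (hy : B a y y = 1) (hz : B a z z = 1) (hyz : B a y z = 0) :
    x * ε (rr D.big y z) * x⁻¹ = ε (rr D.big (ff D.hn τ y) (ff D.hn τ z)) := by
  obtain ⟨g, h1, h2⟩ := exists_g2 D (on2 hy hz hyz)
  have h3 := ff_spec hc D (ix_lt _ _) h1
  have h4 := ff_spec hc D (ix_lt _ _) h2
  have hu : ∀ (g : S) {l : Fin n}, l.val + 1 < n → B a (ac g.1 (e l)) (ac g.1 (e l)) = 1 :=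
    fun g l hl => by rw [OD_B (D.le g.2), e_self D hl]
  rw [← rr_PM D.big (hu g (ix_lt _ _)) (hu g (ix_lt _ _)) h1 h2,
    ← rr_PM D.big (hu (τ g) (ix_lt _ _)) (hu (τ g) (ix_lt _ _)) h3 h4]
  exact conj_e D g (ix_lt _ _) (ix_lt _ _) (ix_ne _ (by decide))

/-- the image of the product of two reflections -/
lemma conj_rr (D : Dat a ε x τ) {y z : Fin n → K}
    (hy : B a y y = 1) (hz : B a z z = 1) :
    x * ε (rr D.big y z) * x⁻¹ = ε (rr D.big (ff D.hn τ y) (ff D.hn τ z)) := by
  let F : (Fin n → K) → Set (Fin n → K) := fun y => {z | B a z z = 1 ∧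
    x * ε (rr D.big y z) * x⁻¹ = ε (rr D.big (ff D.hn τ y) (ff D.hn τ z))}
  have step : ∀ y z w : Fin n → K, B a y y = 1 → B a z z = 1 → B a w w = 1 →
      x * ε (rr D.big y z) * x⁻¹ = ε (rr D.big (ff D.hn τ y) (ff D.hn τ z)) →
      x * ε (rr D.big z w) * x⁻¹ = ε (rr D.big (ff D.hn τ z) (ff D.hn τ w)) →
      x * ε (rr D.big y w) * x⁻¹ = ε (rr D.big (ff D.hn τ y) (ff D.hn τ w)) := by
    intro y z w hy hz hw h1 h2
    rw [← rr_mul D.big hy hz hw, ← rr_mul D.big (ff_unit hc D hy) (ff_unit hc D hz)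
      (ff_unit hc D hw), map_mul, map_mul, ← h1, ← h2]
    group
  have hF : F y = F z := by
    refine hc n a D.ha D.ha1 0 (by have := D.hn; omega) Fin.elim0 (fun i => i.elim0) _ F
      ?_ y z hy hz (fun i => i.elim0) (fun i => i.elim0)
    intro y z hy hz _ _ hyz
    ext w
    constructor
    · rintro ⟨hw, h⟩
      exact ⟨hw, step z y w hz hy hw (conj_orth hc D hz hy (by rw [B_comm]; exact hyz)) h⟩
    · rintro ⟨hw, h⟩
      exact ⟨hw, step y z w hy hz hw (conj_orth hc D hy hz hyz) h⟩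
  have hzz : z ∈ F z := by
    refine ⟨hz, ?_⟩
    rw [rr_self D.big hz, rr_self D.big (ff_unit hc D hz), map_one]
    group
  rw [← hF] at hzz
  exact hzz.2

theorem fe_of_connK (D : Dat a ε x τ) :
    FE a ε x (ff D.hn τ) τ where
  tau := D.tau
  unit y hy := ff_unit hc D hy
  sgn y z hy h := by
    obtain ⟨g, hg⟩ := exists_g1 D hy
    exact (ff_spec hc D (ix_lt _ _) hg).symm.trans (ff_spec hc D (ix_lt _ _) (hg.trans h))
  equi g y hy := by
    obtain ⟨g0, hg0⟩ := exists_g1 D hy
    have h1 : PM (ac (g * g0).1 (e (ix D.hn 0))) (ac g.1 y) := by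
      have h2 := hg0.ac g.1
      rw [← ac_mul] at h2
      exact h2
    have h3 := ff_spec hc D (ix_lt _ _) h1
    have h4 := (ff_spec hc D (ix_lt _ _) hg0).ac (τ g).1
    exact (h4.symm.trans (tau_mul D g g0 _)).trans h3
  inj y z hy hz h := by
    rw [← rr_one D hy hz]
    have h1 := conj_rr hc D hy hz
    rw [(rr_one D (ff_unit hc D hy) (ff_unit hc D hz)).2 h] at h1
    rw [mul_inv_eq_one] at h1
    exact mul_left_cancel (h1.trans (mul_one x).symm)
  orth y z hy hz := by
    have h1 := conj_rr hc D hy hz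
    have h2 : ε (rr D.big (ff D.hn τ y) (ff D.hn τ z)) ^ 2 = 1 ↔ ε (rr D.big y z) ^ 2 = 1 := by
      rw [← h1, conj_pow, mul_inv_eq_one]
      constructor
      · intro h
        exact mul_left_cancel (h.trans (mul_one x).symm)
      · intro h
        rw [h, mul_one]
    have h3 : ε (rr D.big (ff D.hn τ y) (ff D.hn τ z)) = 1 ↔ ε (rr D.big y z) = 1 := by
      rw [← h1, mul_inv_eq_one]
      constructor
      · intro h
        exact mul_left_cancel (h.trans (mul_one x).symm)
      · intro h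
        rw [h, mul_one]
    rw [rr_sq D hy hz, rr_sq D (ff_unit hc D hy) (ff_unit hc D hz)] at h2
    rw [rr_one D hy hz, rr_one D (ff_unit hc D hy) (ff_unit hc D hz)] at h3
    have key : ∀ {y z : Fin n → K}, B a y y = 1 → B a y z = 0 → ¬ PM y z := by
      rintro y z hy h (rfl | rfl)
      · rw [hy] at h; exact one_ne_zero h
      · rw [B_neg_right, hy, neg_eq_zero] at h; exact one_ne_zero h
    constructor
    · intro h
      rcases h2.1 (Or.inl h) with h4 | h4
      · exact h4
      · exact absurd (h3.2 h4) (key (ff_unit hc D hy) h)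
    · intro h
      rcases h2.2 (Or.inl h) with h4 | h4
      · exact h4
      · exact absurd (h3.1 h4) (key hy h)
  one y z hy hz := by
    obtain ⟨p, hp⟩ := CharP.exists K
    have hpf : Fact p.Prime := ⟨CharP.char_is_prime K p⟩
    have hp3 : 3 ≤ p := by
      have h1 := hpf.out.two_le
      rcases Nat.eq_or_lt_of_le h1 with h2 | h2
      · exfalso
        subst h2
        apply D.h2
        exact_mod_cast CharP.cast_eq_zero K 2
      · exact h2
    rw [← rr_pow D hp3 hy hz, ← rr_pow D hp3 (ff_unit hc D hy) (ff_unit hc D hz),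
      ← conj_rr hc D hy hz, conj_pow, mul_inv_eq_one]
    constructor
    · intro h
      exact mul_left_cancel (h.trans (mul_one x).symm)
    · intro h
      rw [h, mul_one]
  base i hi := by
    have h1 : PM (ac (1 : S).1 (e i)) (e i) := by
      left
      exact (ac_one _).symm
    exact (tau_one D (e i)).trans (ff_spec hc D hi h1)

end main

end Vale.Agent.P240.R2.H306
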