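import Vale.Agent.P240.R2.H306.S5

/-!
The group `PΩ_6^+(5)`: the elements that commute with the image of the even sign changes of three
orthogonal coordinates, first part: the image of the complementary four-group.
-/

set_option autoImplicit false

namespace Vale.Agent.P240.R2.H306

open Matrix
open Vale.Agent.P240.R2.H145.EO

universe u v

section gen

variable {K : Type u} [Field K] {n : ℕ} {a : Fin n → K}
variable {S : Subgroup (GL (Fin n) K)} {G : Type v} [Group G] {ε : S →* G}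

/-- the trivial data -/
lemma dat1 (h2 : (2 : K) ≠ 0) (hn : 6 ≤ n) (ha : ∀ i, a i ≠ 0)
    (ha1 : ∀ i : Fin n, i.val + 1 < n → a i = 1) (hB : Big a S) (hO : S ≤ OD a) (hk : Ker ε) :
    Dat a ε 1 (fun g => g) :=
  ⟨h2, hn, ha, ha1, hB, hO, hk, fun g => by group, fun _ _ _ _ _ _ _ => by group⟩

/-- the products of the reflections in two orthogonal unit vectors commute -/
lemma rr_swap (hB : Big a S) {y z : Fin n → K} (hy : B a y y = 1) (hz : B a z z = 1)
    (hyz : B a y z = 0) : rr hB y z = rr hB z y := by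
  apply S_ext
  intro v
  rw [ac_rr hB hy hz, ac_rr hB hz hy, B_comm z y, hyz]
  module

lemma rr_sq1 (hB : Big a S) {y z : Fin n → K} (hy : B a y y = 1) (hz : B a z z = 1)
    (hyz : B a y z = 0) : rr hB y z * rr hB y z = 1 := by
  nth_rewrite 2 [rr_swap hB hy hz hyz]
  rw [rr_mul hB hy hz hy, rr_self hB hy]

lemma rr_inv (hB : Big a S) {y z : Fin n → K} (hy : B a y y = 1) (hz : B a z z = 1)
    (hyz : B a y z = 0) : (rr hB y z)⁻¹ = rr hB y z :=
  inv_eq_of_mul_eq_one_left (rr_sq1 hB hy hz hyz)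

/-- an element that commutes with the classes of `r_y r_z` and `r_y r_w` preserves the line of `y` -/
lemma fixl (D : Dat a ε 1 (fun g => g)) {g : S} {y z w : Fin n → K} (hy : B a y y = 1)
    (hz : B a z z = 1) (hw : B a w w = 1) (hyz : B a y z = 0) (hyw : B a y w = 0)
    (hzw : B a z w = 0) (h1 : ε g * ε (rr D.big y z) = ε (rr D.big y z) * ε g)
    (h2 : ε g * ε (rr D.big y w) = ε (rr D.big y w) * ε g) : PM y (ac g.1 y) := by
  have hgO := D.le g.2
  have hy' : B a (ac g.1 y) (ac g.1 y) = 1 := by rw [OD_B hgO, hy]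
  have hz' : B a (ac g.1 z) (ac g.1 z) = 1 := by rw [OD_B hgO, hz]
  have hw' : B a (ac g.1 w) (ac g.1 w) = 1 := by rw [OD_B hgO, hw]
  have e1 : rr D.big (ac g.1 y) (ac g.1 z) = rr D.big y z := by
    apply rr_inj D hy' hz' hy hz
    rw [← rr_conj D.big D.le g hy hz, map_mul, map_mul, map_inv, h1, mul_inv_cancel_right]
  have e2 : rr D.big (ac g.1 y) (ac g.1 w) = rr D.big y w := by
    apply rr_inj D hy' hw' hy hw
    rw [← rr_conj D.big D.le g hy hw, map_mul, map_mul, map_inv, h2, mul_inv_cancel_right]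
  have p1 := plane_eq D hy' hz' hy hz (by rw [OD_B hgO, hyz]) hyz e1 (ac g.1 y)
  have p2 := plane_eq D hy' hw' hy hw (by rw [OD_B hgO, hyw]) hyw e2 (ac g.1 y)
  rw [hy', B_comm (ac g.1 z), OD_B hgO, hyz, zero_smul, add_zero, one_smul] at p1
  rw [hy', B_comm (ac g.1 w), OD_B hgO, hyw, zero_smul, add_zero, one_smul] at p2
  have hz0 : B a z (ac g.1 y) = 0 := by
    rw [p2, B_add_right, B_smul_right, B_smul_right, B_comm z y, hyz, hzw]
    ring
  rw [hz0, zero_smul, add_zero] at p1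
  set l := B a y (ac g.1 y) with hl
  have h3 : l * l = 1 := by
    have h4 := hy'
    rw [p1, B_smul_left, B_smul_right, hy, mul_one] at h4
    exact h4
  have h5 : (l - 1) * (l + 1) = 0 := by linear_combination h3
  rcases mul_eq_zero.1 h5 with h6 | h6
  · left
    rw [p1, sub_eq_zero.1 h6, one_smul]
  · right
    rw [p1, eq_neg_of_add_eq_zero_left h6, neg_smul, one_smul]

/-- an element that fixes a nonzero vector is determined by its class -/
lemma inj0 (D : Dat a ε 1 (fun g => g)) {g h : S} {y : Fin n → K} (hy : B a y y = 1)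
    (hg : ac g.1 y = y) (hh : ac h.1 y = y) (H : ε g = ε h) : g = h := by
  obtain ⟨l, hl⟩ := ker_scalar D H
  have h1 := hl y
  rw [hg, hh] at h1
  have h2 : l = 1 := by
    have h3 : B a y y = l * B a y y := by
      nth_rewrite 2 [h1]
      rw [B_smul_right]
    rw [hy, mul_one] at h3
    exact h3.symm
  apply S_ext
  intro v
  rw [hl v, h2, one_smul]

end gen

section three

variable {K : Type u} [Field K] {n : ℕ} {a : Fin n → K}
variable {S : Subgroup (GL (Fin n) K)} {G : Type v} [Group G] {ε : S →* G}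

/-- three vectors that are the eigenvectors of the images of the complementary four-group -/
structure Tri (a : Fin n → K) (T3 T4 T5 : GL (Fin n) K) (u3 u4 u5 : Fin n → K) (b : K) : Prop where
  b0 : b ≠ 0
  n3 : B a u3 u3 = b
  n4 : B a u4 u4 = b
  n5 : B a u5 u5 = b
  a33 : ac T3 u3 = u3
  a34 : ac T3 u4 = -u4
  a35 : ac T3 u5 = -u5
  a43 : ac T4 u3 = -u3
  a44 : ac T4 u4 = u4
  a45 : ac T4 u5 = -u5
  a53 : ac T5 u3 = -u3
  a54 : ac T5 u4 = -u4
  a55 : ac T5 u5 = u5

/-- eigenvectors of an isometry for the eigenvalues `1`, `-1` are orthogonal -/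
lemma orth_pm (h2 : (2 : K) ≠ 0) {T : GL (Fin n) K} (hT : T ∈ OD a) {y z : Fin n → K}
    (hy : ac T y = y) (hz : ac T z = -z) : B a y z = 0 := by
  have h1 := OD_B hT y z
  rw [hy, hz, B_neg_right] at h1
  have h3 : 2 * B a y z = 0 := by linear_combination -h1
  exact (mul_eq_zero.1 h3).resolve_left h2

/-- the eigenvectors of a four-group whose elements are permuted by an isometry -/
lemma exists_tri (h2 : (2 : K) ≠ 0) (ha : ∀ i, a i ≠ 0) {T3 T4 T5 c : GL (Fin n) K}
    (hT3 : T3 ∈ OD a) (hT4 : T4 ∈ OD a) (hT5 : T5 ∈ OD a) (hc : c ∈ OD a)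
    (s3 : T3 * T3 = 1) (s4 : T4 * T4 = 1) (m34 : T3 * T4 = T5)
    (m43 : T4 * T3 = T5) (c3 : c * T3 = T5 * c) (c5 : c * T5 = T4 * c) (c4 : c * T4 = T3 * c)
    (hne : T3 ≠ 1) : ∃ u3 u4 u5 b, Tri a T3 T4 T5 u3 u4 u5 b := by
  have m35 : T3 * T5 = T4 := by rw [← m34, ← mul_assoc, s3, one_mul]
  have m45 : T4 * T5 = T3 := by rw [← m43, ← mul_assoc, s4, one_mul]
  have q3 : ∀ v, ac T3 (ac T3 v) = v := fun v => by rw [← ac_mul, s3, ac_one]
  have q4 : ∀ v, ac T4 (ac T4 v) = v := fun v => by rw [← ac_mul, s4, ac_one]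
  have q34 : ∀ v, ac T3 (ac T4 v) = ac T5 v := fun v => by rw [← ac_mul, m34]
  have q43 : ∀ v, ac T4 (ac T3 v) = ac T5 v := fun v => by rw [← ac_mul, m43]
  have q35 : ∀ v, ac T3 (ac T5 v) = ac T4 v := fun v => by rw [← ac_mul, m35]
  have q45 : ∀ v, ac T4 (ac T5 v) = ac T3 v := fun v => by rw [← ac_mul, m45]
  have k3 : ∀ v, ac T5 (ac c v) = ac c (ac T3 v) := fun v => by rw [← ac_mul, ← ac_mul, c3]
  have k5 : ∀ v, ac T4 (ac c v) = ac c (ac T5 v) := fun v => by rw [← ac_mul, ← ac_mul, c5]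
  have k4 : ∀ v, ac T3 (ac c v) = ac c (ac T4 v) := fun v => by rw [← ac_mul, ← ac_mul, c4]
  -- a nonzero vector of type `3`
  have hinj : ∀ v, ac c v = 0 → v = 0 := by
    intro v hv
    rw [← ac_inv c v, hv]
    exact mulVec_zero _
  obtain ⟨v3, v30, v33, v34⟩ : ∃ v, v ≠ 0 ∧ ac T3 v = v ∧ ac T4 v = -v := by
    obtain ⟨v, hv⟩ : ∃ v, ac T3 v ≠ v := by
      by_contra hcon
      push Not at hcon
      exact hne (gl_ext fun v => by rw [hcon v, ac_one])
    set w := v - ac T3 v with hw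
    have hw0 : w ≠ 0 := fun h => hv (sub_eq_zero.1 h).symm
    have hw3 : ac T3 w = -w := by
      rw [hw, sub_eq_add_neg, ac_add, ac_neg, q3]
      abel
    have w5 : ac T5 w = -ac T4 w := by rw [← q43, hw3, ac_neg]
    by_cases hp : w + ac T4 w = 0
    · -- type `5`
      have hw4 : ac T4 w = -w := (neg_eq_of_add_eq_zero_right hp).symm
      have hw5 : ac T5 w = w := by rw [w5, hw4, neg_neg]
      refine ⟨ac c (ac c w), fun h => hw0 (hinj _ (hinj _ h)), ?_, ?_⟩
      · rw [k4, k5, hw5]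
      · rw [k5, k3, hw3, ac_neg, ac_neg]
    · -- type `4`
      set p := w + ac T4 w with hp'
      have hp4 : ac T4 p = p := by rw [hp', ac_add, q4]; abel
      have hp3 : ac T3 p = -p := by
        rw [hp', ac_add, q34, hw3, w5]
        abel
      have hp5 : ac T5 p = -p := by rw [← q43, hp3, ac_neg, hp4]
      refine ⟨ac c p, fun h => hp (hinj _ h), ?_, ?_⟩
      · rw [k4, hp4]
      · rw [k5, hp5, ac_neg]
  -- a nonisotropic vector of type `3`
  obtain ⟨u3, u30, u33, u34⟩ : ∃ v, B a v v ≠ 0 ∧ ac T3 v = v ∧ ac T4 v = -v := by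
    obtain ⟨i, hi⟩ : ∃ i, v3 i ≠ 0 := by
      by_contra hcon
      push Not at hcon
      exact v30 (funext hcon)
    set e1 : Fin n → K := Pi.single i 1 with he1
    have hb : B a v3 e1 ≠ 0 := by
      rw [B_comm, he1, B_single, mul_one]
      exact mul_ne_zero (ha i) hi
    have v35 : ac T5 v3 = -v3 := by rw [← q43, v33, v34]
    set v' := e1 + ac T3 e1 - ac T4 e1 - ac T5 e1 with hv'
    have r3 : ac T3 v' = v' := by
      rw [hv', sub_eq_add_neg, sub_eq_add_neg, ac_add, ac_add, ac_add, ac_neg, ac_neg, q3, q34, q35]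
      abel
    have r4 : ac T4 v' = -v' := by
      rw [hv', sub_eq_add_neg, sub_eq_add_neg, ac_add, ac_add, ac_add, ac_neg, ac_neg, q4, q43, q45]
      abel
    have f3 : B a v3 (ac T3 e1) = B a v3 e1 := by
      have := OD_B hT3 v3 e1
      rwa [v33] at this
    have f4 : B a v3 (ac T4 e1) = -B a v3 e1 := by
      have := OD_B hT4 v3 e1
      rw [v34, B_neg_left] at this
      linear_combination -this
    have f5 : B a v3 (ac T5 e1) = -B a v3 e1 := by
      have := OD_B hT5 v3 e1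
      rw [v35, B_neg_left] at this
      linear_combination -this
    have hb' : B a v3 v' = 4 * B a v3 e1 := by
      rw [hv', B_sub_right, B_sub_right, B_add_right, f3, f4, f5]
      ring
    have h4 : (4 : K) ≠ 0 := by
      have : (4 : K) = 2 * 2 := by norm_num
      rw [this]; exact mul_ne_zero h2 h2
    have hb0 : B a v3 v' ≠ 0 := by rw [hb']; exact mul_ne_zero h4 hb
    by_cases c1 : B a v3 v3 = 0
    · by_cases c2 : B a v' v' = 0
      · refine ⟨v3 + v', ?_, ?_, ?_⟩
        · rw [B_add_left, B_add_right, B_add_right, c1, c2, B_comm v' v3]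
          intro h
          have : 2 * B a v3 v' = 0 := by linear_combination h
          exact mul_ne_zero h2 hb0 this
        · rw [ac_add, v33, r3]
        · rw [ac_add, v34, r4]; abel
      · exact ⟨v', c2, r3, r4⟩
    · exact ⟨v3, c1, v33, v34⟩
  have u35 : ac T5 u3 = -u3 := by rw [← q43, u33, u34]
  refine ⟨u3, ac c (ac c u3), ac c u3, B a u3 u3, u30, rfl, ?_, ?_, u33, ?_, ?_, u34, ?_, ?_, u35,
    ?_, ?_⟩
  · rw [OD_B hc, OD_B hc]
  · rw [OD_B hc]
  · rw [k4, k5, u35, ac_neg, ac_neg]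
  · rw [k4, u34, ac_neg]
  · rw [k5, k3, u33]
  · rw [k5, u35, ac_neg]
  · rw [k3, k4, u34, ac_neg, ac_neg]
  · rw [k3, u33]

end three

end Vale.Agent.P240.R2.H306
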