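import Vale.Agent.P240.R2.H306.P4a

/-!
The group `PΩ_6^+(5)`: the elements that commute with the image of the even sign changes of the
first three coordinates, second part: an isometry with the same action on the frame.
-/

set_option autoImplicit false

namespace Vale.Agent.P240.R2.H306

open Matrix
open Vale.Agent.P240.R2.H145.EO

universe u v

section basis

variable {K : Type u} [Field K] {n : ℕ}

/-- the standard form -/
abbrev on (K : Type u) [Field K] (n : ℕ) : Fin n → K := fun _ => 1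

lemma B_on (x y : Fin n → K) : B (on K n) x y = x ⬝ᵥ y := by
  unfold B dotProduct
  exact Finset.sum_congr rfl fun i _ => by rw [one_mul]

lemma on_e (i j : Fin n) : B (on K n) (e i) (e j) = if i = j then 1 else 0 := by
  rw [e, e, B_single, Pi.single_apply]
  split_ifs <;> simp

/-- the isometry with given orthonormal columns -/
lemma exists_on {f : Fin n → Fin n → K} (hf : ∀ i j, B (on K n) (f i) (f j) = if i = j then 1 else 0) :
    ∃ h ∈ OD (on K n), ∀ i, ac h (e i) = f i := by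
  have h1 : Matrix.of f * (Matrix.of f)ᵀ = 1 := by
    ext i j
    rw [mul_apply, one_apply, ← hf i j, B_on]
    rfl
  have h2 : (Matrix.of f)ᵀ * Matrix.of f = 1 := mul_eq_one_comm.1 h1
  refine ⟨⟨(Matrix.of f)ᵀ, Matrix.of f, h2, h1⟩, ?_, fun i => ?_⟩
  · intro x y
    rw [B_on, B_on]
    show ((Matrix.of f)ᵀ *ᵥ x) ⬝ᵥ ((Matrix.of f)ᵀ *ᵥ y) = _
    rw [dotProduct_mulVec, vecMul_transpose, mulVec_mulVec, h1, one_mulVec]
  · show (Matrix.of f)ᵀ *ᵥ (Pi.single i 1) = f i
    rw [mulVec_single_one]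
    rfl

/-- isometries that agree on a basis -/
lemma ext_basis {g g' h : GL (Fin n) K} (H : ∀ i, ac g (ac h (e i)) = ac g' (ac h (e i))) :
    g = g' := by
  have h1 : g * h = g' * h := by
    apply Units.ext
    apply Matrix.ext_of_mulVec_single
    intro i
    have := H i
    rw [← ac_mul, ← ac_mul] at this
    exact this
  exact mul_right_cancel h1

variable {S : Subgroup (GL (Fin n) K)}

/-- the action of the product of two reflections on the frame -/
lemma rr_frame (hB : Big (on K n) S) {h : GL (Fin n) K} (hO : h ∈ OD (on K n)) {i j : Fin n}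
    (hij : i ≠ j) (k : Fin n) : ac (rr hB (ac h (e i)) (ac h (e j))).1 (ac h (e k)) =
      if k = i ∨ k = j then -ac h (e k) else ac h (e k) := by
  have hu : ∀ l : Fin n, B (on K n) (ac h (e l)) (ac h (e l)) = 1 := by
    intro l
    rw [OD_B hO, on_e, if_pos rfl]
  rw [ac_rr hB (hu i) (hu j), OD_B hO, OD_B hO, OD_B hO, on_e, on_e, on_e, if_neg hij]
  by_cases hk : k = i
  · subst hk
    rw [if_neg (Ne.symm hij), if_pos rfl, if_pos (Or.inl rfl)]
    module
  · by_cases hk' : k = j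
    · subst hk'
      rw [if_pos rfl, if_neg hij, if_pos (Or.inr rfl)]
      module
    · rw [if_neg (Ne.symm hk'), if_neg (Ne.symm hk), if_neg (by tauto)]
      module

/-- the product of the reflections in the vectors of an orthonormal frame -/
lemma eps_neg {G : Type v} [Group G] {S : Subgroup (GL (Fin 6) K)} {ε : S →* G} (hk : Ker ε)
    (hB : Big (on K 6) S) {h : GL (Fin 6) K} (hO : h ∈ OD (on K 6)) :
    ε (rr hB (ac h (e 0)) (ac h (e 3)) * rr hB (ac h (e 1)) (ac h (e 2)) *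
      rr hB (ac h (e 4)) (ac h (e 5))) = 1 := by
  set m := rr hB (ac h (e 0)) (ac h (e 3)) * rr hB (ac h (e 1)) (ac h (e 2)) *
      rr hB (ac h (e 4)) (ac h (e 5)) with hm
  have h1 : m.1 = -1 := by
    apply ext_basis (h := h)
    intro k
    have e1 : ac (-1 : GL (Fin 6) K) (ac h (e k)) = -ac h (e k) := by
      show (-1 : Matrix (Fin 6) (Fin 6) K) *ᵥ _ = _
      rw [neg_mulVec, one_mulVec]
    rw [e1]
    show ac ((rr hB (ac h (e 0)) (ac h (e 3))).1 * (rr hB (ac h (e 1)) (ac h (e 2))).1 *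
      (rr hB (ac h (e 4)) (ac h (e 5))).1) (ac h (e k)) = _
    rw [ac_mul, ac_mul, rr_frame hB hO (by decide)]
    fin_cases k
    · rw [if_neg (by decide), rr_frame hB hO (by decide), if_neg (by decide),
        rr_frame hB hO (by decide), if_pos (by decide)]
    · rw [if_neg (by decide), rr_frame hB hO (by decide), if_pos (by decide), ac_neg,
        rr_frame hB hO (by decide), if_neg (by decide)]
    · rw [if_neg (by decide), rr_frame hB hO (by decide), if_pos (by decide), ac_neg,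
        rr_frame hB hO (by decide), if_neg (by decide)]
    · rw [if_neg (by decide), rr_frame hB hO (by decide), if_neg (by decide),
        rr_frame hB hO (by decide), if_pos (by decide)]
    · rw [if_pos (by decide), ac_neg, rr_frame hB hO (by decide), if_neg (by decide), ac_neg,
        rr_frame hB hO (by decide), if_neg (by decide)]
    · rw [if_pos (by decide), ac_neg, rr_frame hB hO (by decide), if_neg (by decide), ac_neg,
        rr_frame hB hO (by decide), if_neg (by decide)]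
  rw [hk]
  refine ⟨-1, ?_⟩
  rw [h1, neg_one_smul]
  rfl

/-- the frame that extends the first three vectors of the standard frame -/
def fr (s : K) (u3 u4 u5 : Fin 6 → K) (i : Fin 6) : Fin 6 → K :=
  if i.val < 3 then e i else if i = 3 then s • u3 else if i = 4 then s • u4 else s • u5

lemma fin6 : ∀ k : Fin 6, k.val < 3 ∨ k = 3 ∨ k = 4 ∨ k = 5 := by decide

lemma fr_lt (s : K) (u3 u4 u5 : Fin 6 → K) {i : Fin 6} (hi : i.val < 3) :
    fr s u3 u4 u5 i = e i := if_pos hi

lemma fr_3 (s : K) (u3 u4 u5 : Fin 6 → K) : fr s u3 u4 u5 3 = s • u3 := rfl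

lemma fr_4 (s : K) (u3 u4 u5 : Fin 6 → K) : fr s u3 u4 u5 4 = s • u4 := rfl

lemma fr_5 (s : K) (u3 u4 u5 : Fin 6 → K) : fr s u3 u4 u5 5 = s • u5 := rfl

lemma lt3_ne {k j : Fin 6} (h1 : k.val < 3) (h3 : 3 ≤ j.val) : k ≠ j := by
  intro h'
  rw [h'] at h1
  omega

/-- the Gram matrix of the frame -/
lemma gram_fr {u3 u4 u5 : Fin 6 → K} {b : K} (s : K)
    (oi3 : ∀ i : Fin 6, i.val < 3 → B (on K 6) (e i) u3 = 0)
    (oi4 : ∀ i : Fin 6, i.val < 3 → B (on K 6) (e i) u4 = 0)
    (oi5 : ∀ i : Fin 6, i.val < 3 → B (on K 6) (e i) u5 = 0)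
    (o34 : B (on K 6) u3 u4 = 0) (o35 : B (on K 6) u3 u5 = 0) (o45 : B (on K 6) u4 u5 = 0)
    (n3 : B (on K 6) u3 u3 = b) (n4 : B (on K 6) u4 u4 = b) (n5 : B (on K 6) u5 u5 = b)
    (i j : Fin 6) : B (on K 6) (fr s u3 u4 u5 i) (fr s u3 u4 u5 j) =
      if i = j then (if i.val < 3 then 1 else s * s * b) else 0 := by
  rcases fin6 i with hi | rfl | rfl | rfl
  · rw [fr_lt _ _ _ _ hi]
    rcases fin6 j with hj | rfl | rfl | rfl
    · rw [fr_lt _ _ _ _ hj, on_e, if_pos hi]
    · rw [fr_3, B_smul_right, oi3 i hi, mul_zero, if_neg (lt3_ne hi (by decide))]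
    · rw [fr_4, B_smul_right, oi4 i hi, mul_zero, if_neg (lt3_ne hi (by decide))]
    · rw [fr_5, B_smul_right, oi5 i hi, mul_zero, if_neg (lt3_ne hi (by decide))]
  · rw [fr_3, B_smul_left, if_neg (show ¬ ((3 : Fin 6).val < 3) by decide)]
    rcases fin6 j with hj | rfl | rfl | rfl
    · rw [fr_lt _ _ _ _ hj, B_comm, oi3 j hj, mul_zero, if_neg (lt3_ne hj (by decide)).symm]
    · rw [fr_3, B_smul_right, n3, if_pos rfl, mul_assoc]
    · rw [fr_4, B_smul_right, o34, mul_zero, mul_zero, if_neg (by decide)]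
    · rw [fr_5, B_smul_right, o35, mul_zero, mul_zero, if_neg (by decide)]
  · rw [fr_4, B_smul_left, if_neg (show ¬ ((4 : Fin 6).val < 3) by decide)]
    rcases fin6 j with hj | rfl | rfl | rfl
    · rw [fr_lt _ _ _ _ hj, B_comm, oi4 j hj, mul_zero, if_neg (lt3_ne hj (by decide)).symm]
    · rw [fr_3, B_smul_right, B_comm, o34, mul_zero, mul_zero, if_neg (by decide)]
    · rw [fr_4, B_smul_right, n4, if_pos rfl, mul_assoc]
    · rw [fr_5, B_smul_right, o45, mul_zero, mul_zero, if_neg (by decide)]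
  · rw [fr_5, B_smul_left, if_neg (show ¬ ((5 : Fin 6).val < 3) by decide)]
    rcases fin6 j with hj | rfl | rfl | rfl
    · rw [fr_lt _ _ _ _ hj, B_comm, oi5 j hj, mul_zero, if_neg (lt3_ne hj (by decide)).symm]
    · rw [fr_3, B_smul_right, B_comm, o35, mul_zero, mul_zero, if_neg (by decide)]
    · rw [fr_4, B_smul_right, B_comm, o45, mul_zero, mul_zero, if_neg (by decide)]
    · rw [fr_5, B_smul_right, n5, if_pos rfl, mul_assoc]

/-- the norm of the last three vectors is a square -/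
lemma exists_s {u3 u4 u5 : Fin 6 → K} {b : K} (b0 : b ≠ 0)
    (hg : ∀ i j : Fin 6, B (on K 6) (fr 1 u3 u4 u5 i) (fr 1 u3 u4 u5 j) =
      if i = j then (if i.val < 3 then 1 else 1 * 1 * b) else 0) : ∃ s : K, s * s * b = 1 := by
  set M : Matrix (Fin 6) (Fin 6) K := Matrix.of (fr 1 u3 u4 u5) with hM
  have h3 : M * Mᵀ = diagonal (fun i : Fin 6 => if i.val < 3 then (1 : K) else 1 * 1 * b) := by
    ext i j
    rw [mul_apply, diagonal_apply, ← hg i j, B_on]
    rfl
  have h4 := congrArg Matrix.det h3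
  rw [det_mul, det_transpose, det_diagonal] at h4
  have h6 : M.det * M.det = b * b * b := by
    rw [h4]
    simp [Fin.prod_univ_succ]
    ring
  have h7 : M.det ≠ 0 := by
    intro h8
    rw [h8, mul_zero] at h6
    exact mul_ne_zero (mul_ne_zero b0 b0) b0 h6.symm
  refine ⟨b / M.det, ?_⟩
  field_simp
  linear_combination -h6

end basis

section std

variable {K : Type u} [Field K] [Fintype K]
variable {S : Subgroup (GL (Fin 6) K)} {G : Type v} [Group G] {ε : S →* G}

omit [Fintype K] in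
/-- commutators act trivially on common eigenvectors -/
lemma comm_fix {c d : GL (Fin 6) K} {y : Fin 6 → K} (hc : PM y (ac c y)) (hd : PM y (ac d y)) :
    ac (c * d * c⁻¹ * d⁻¹) y = y := by
  have h1 : ∀ {g : GL (Fin 6) K} {y : Fin 6 → K}, PM y (ac g y) →
      (ac g y = y ∧ ac g⁻¹ y = y) ∨ (ac g y = -y ∧ ac g⁻¹ y = -y) := by
    intro g y h
    rcases h with h | h
    · left
      refine ⟨h, ?_⟩
      have := ac_inv g y
      rwa [h] at this
    · right
      refine ⟨h, ?_⟩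
      have := ac_inv g y
      rw [h, ac_neg] at this
      rw [← this, neg_neg, this]
  rw [ac_mul, ac_mul, ac_mul]
  rcases h1 hc with ⟨c1, c2⟩ | ⟨c1, c2⟩ <;> rcases h1 hd with ⟨d1, d2⟩ | ⟨d1, d2⟩
  · rw [d2, c2, d1, c1]
  · rw [d2, ac_neg, c2, ac_neg, d1, neg_neg, c1]
  · rw [d2, c2, ac_neg, d1, ac_neg, c1, neg_neg]
  · rw [d2, ac_neg, c2, neg_neg, d1, ac_neg, c1, neg_neg]

/-- the isometry -/
theorem std_pos (h : Fintype.card K = 5) (hB : Big (on K 6) S) (hO : S ≤ OD (on K 6))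
    (hk : Ker ε) {x : G} {τ : S → S} (hτ : ∀ g, x * ε g * x⁻¹ = ε (τ g))
    (h01 : x * ε (rr hB (e 0) (e 1)) = ε (rr hB (e 0) (e 1)) * x)
    (h12 : x * ε (rr hB (e 1) (e 2)) = ε (rr hB (e 1) (e 2)) * x) :
    ∃ h ∈ OD (on K 6), ∀ i j, x * ε (rr hB (e i) (e j)) * x⁻¹ =
      ε (rr hB (ac h (e i)) (ac h (e j))) := by
  have h2 := five_two h
  have h5 := five_zero h
  have D : Dat (on K 6) ε 1 (fun g => g) :=
    dat1 h2 le_rfl (fun _ => one_ne_zero) (fun _ _ => rfl) hB hO hk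
  let φ : S →* G := (MulAut.conj x).toMonoidHom.comp ε
  have hφ : ∀ g, φ g = ε (τ g) := hτ
  have hφx : ∀ g, φ g = x * ε g * x⁻¹ := fun g => rfl
  have hu : ∀ i : Fin 6, B (on K 6) (e i) (e i) = 1 := fun i => by rw [on_e, if_pos rfl]
  have ho : ∀ {i j : Fin 6}, i ≠ j → B (on K 6) (e i) (e j) = 0 := fun hij => by
    rw [on_e, if_neg hij]
  -- the images of the first two products
  have f01 : φ (rr hB (e 0) (e 1)) = ε (rr hB (e 0) (e 1)) := by
    rw [hφx, h01, mul_inv_cancel_right]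
  have f12 : φ (rr hB (e 1) (e 2)) = ε (rr hB (e 1) (e 2)) := by
    rw [hφx, h12, mul_inv_cancel_right]
  have f02 : φ (rr hB (e 0) (e 2)) = ε (rr hB (e 0) (e 2)) := by
    rw [← rr_mul hB (hu 0) (hu 1) (hu 2), map_mul, map_mul, f01, f12]
  -- elements that fix the first three vectors
  have key : ∀ g : S, (∀ i : Fin 6, i.val < 3 → ac g.1 (e i) = e i) →
      ∀ i : Fin 6, i.val < 3 → PM (e i) (ac (τ g).1 (e i)) := by
    intro g hg
    have hc : ∀ i j : Fin 6, i.val < 3 → j.val < 3 → φ (rr hB (e i) (e j)) = ε (rr hB (e i) (e j)) →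
        ε (τ g) * ε (rr hB (e i) (e j)) = ε (rr hB (e i) (e j)) * ε (τ g) := by
      intro i j hi hj hf
      have e1 : g * rr hB (e i) (e j) * g⁻¹ = rr hB (e i) (e j) := by
        rw [rr_conj hB hO g (hu i) (hu j), hg i hi, hg j hj]
      rw [← hφ, ← hf, ← map_mul, ← map_mul, mul_inv_eq_iff_eq_mul.1 e1]
    have f10 : φ (rr hB (e 1) (e 0)) = ε (rr hB (e 1) (e 0)) := by
      rw [rr_swap hB (hu 1) (hu 0) (ho (by decide))]; exact f01
    have f20 : φ (rr hB (e 2) (e 0)) = ε (rr hB (e 2) (e 0)) := by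
      rw [rr_swap hB (hu 2) (hu 0) (ho (by decide))]; exact f02
    have f21 : φ (rr hB (e 2) (e 1)) = ε (rr hB (e 2) (e 1)) := by
      rw [rr_swap hB (hu 2) (hu 1) (ho (by decide))]; exact f12
    have k0 : PM (e 0) (ac (τ g).1 (e 0)) := fixl D (hu 0) (hu 1) (hu 2) (ho (by decide))
      (ho (by decide)) (ho (by decide)) (hc 0 1 (by decide) (by decide) f01)
      (hc 0 2 (by decide) (by decide) f02)
    have k1 : PM (e 1) (ac (τ g).1 (e 1)) := fixl D (hu 1) (hu 0) (hu 2) (ho (by decide))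
      (ho (by decide)) (ho (by decide)) (hc 1 0 (by decide) (by decide) f10)
      (hc 1 2 (by decide) (by decide) f12)
    have k2 : PM (e 2) (ac (τ g).1 (e 2)) := fixl D (hu 2) (hu 0) (hu 1) (ho (by decide))
      (ho (by decide)) (ho (by decide)) (hc 2 0 (by decide) (by decide) f20)
      (hc 2 1 (by decide) (by decide) f21)
    intro i hi
    have hi' : i = 0 ∨ i = 1 ∨ i = 2 := by
      revert i
      decide
    rcases hi' with rfl | rfl | rfl
    · exact k0
    · exact k1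
    · exact k2
  -- the four-group and the element of order three
  set t3 : S := rr hB (e 4) (e 5) with ht3
  set t4 : S := rr hB (e 5) (e 3) with ht4
  set t5 : S := rr hB (e 3) (e 4) with ht5
  have uU : B (on K 6) (w3 3 4 5 1 1 (-2)) (w3 3 4 5 1 1 (-2)) = 1 := by
    rw [B_w3, w3_i (by decide) (by decide), w3_j (by decide) (by decide),
      w3_k (by decide) (by decide)]
    linear_combination h5
  have uV : B (on K 6) (w3 3 4 5 1 (-2) 1) (w3 3 4 5 1 (-2) 1) = 1 := by
    rw [B_w3, w3_i (by decide) (by decide), w3_j (by decide) (by decide),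
      w3_k (by decide) (by decide)]
    linear_combination h5
  have uUV : B (on K 6) (w3 3 4 5 1 1 (-2)) (w3 3 4 5 1 (-2) 1) = 2 := by
    rw [B_w3, w3_i (by decide) (by decide), w3_j (by decide) (by decide),
      w3_k (by decide) (by decide)]
    linear_combination -h5
  set γ : S := rr hB (w3 3 4 5 1 1 (-2)) (w3 3 4 5 1 (-2) 1) with hγ
  have hγa : ∀ v, ac γ.1 v = v - (2 * (v 3 + -2 * v 4 + v 5)) • w3 3 4 5 1 (-2) 1 -
      (2 * (v 3 + v 4 + -2 * v 5)) • w3 3 4 5 1 1 (-2) +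
      (4 * 2 * (v 3 + -2 * v 4 + v 5)) • w3 3 4 5 1 1 (-2) := by
    intro v
    rw [hγ, ac_rr hB uU uV, uUV, B_w3, B_w3]
    simp only [one_mul]
  have γ3 : ac γ.1 (e 3) = e 5 := by
    rw [hγa]
    funext k
    fin_cases k <;> simp [e, w3] <;>
      first | done | linear_combination h5 | linear_combination 2 * h5 | linear_combination 3 * h5 |
        linear_combination 4 * h5 | linear_combination -h5 | linear_combination -2 * h5 |
        linear_combination -3 * h5 | linear_combination -4 * h5 | linear_combination 5 * h5 |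
        linear_combination -5 * h5 | linear_combination 8 * h5 | linear_combination -8 * h5
  have γ4 : ac γ.1 (e 4) = e 3 := by
    rw [hγa]
    funext k
    fin_cases k <;> simp [e, w3] <;>
      first | done | linear_combination h5 | linear_combination 2 * h5 | linear_combination 3 * h5 |
        linear_combination 4 * h5 | linear_combination -h5 | linear_combination -2 * h5 |
        linear_combination -3 * h5 | linear_combination -4 * h5 | linear_combination 5 * h5 |
        linear_combination -5 * h5 | linear_combination 8 * h5 | linear_combination -8 * h5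
  have γ5 : ac γ.1 (e 5) = e 4 := by
    rw [hγa]
    funext k
    fin_cases k <;> simp [e, w3] <;>
      first | done | linear_combination h5 | linear_combination 2 * h5 | linear_combination 3 * h5 |
        linear_combination 4 * h5 | linear_combination -h5 | linear_combination -2 * h5 |
        linear_combination -3 * h5 | linear_combination -4 * h5 | linear_combination 5 * h5 |
        linear_combination -5 * h5 | linear_combination 8 * h5 | linear_combination -8 * h5
  have γi : ∀ i : Fin 6, i.val < 3 → ac γ.1 (e i) = e i := by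
    intro i hi
    have h3 : (3 : Fin 6) ≠ i := by intro h; rw [← h] at hi; exact absurd hi (by decide)
    have h4 : (4 : Fin 6) ≠ i := by intro h; rw [← h] at hi; exact absurd hi (by decide)
    have h6 : (5 : Fin 6) ≠ i := by intro h; rw [← h] at hi; exact absurd hi (by decide)
    rw [hγa]
    simp [e, h3, h4, h6]
  have ne34 : (3 : Fin 6) ≠ 4 := by decide
  have ne35 : (3 : Fin 6) ≠ 5 := by decide
  have ne45 : (4 : Fin 6) ≠ 5 := by decide
  -- the relations in `S`
  have r33 : t3 * t3 = 1 := rr_sq1 hB (hu 4) (hu 5) (ho ne45)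
  have r44 : t4 * t4 = 1 := rr_sq1 hB (hu 5) (hu 3) (ho ne35.symm)
  have r55 : t5 * t5 = 1 := rr_sq1 hB (hu 3) (hu 4) (ho ne34)
  have r53 : t5 * t3 = t4 := by
    rw [ht5, ht3, rr_mul hB (hu 3) (hu 4) (hu 5), ht4, rr_swap hB (hu 3) (hu 5) (ho ne35)]
  have r34 : t3 * t4 = t5 := by
    rw [ht3, ht4, rr_mul hB (hu 4) (hu 5) (hu 3), ht5, rr_swap hB (hu 4) (hu 3) (ho ne34.symm)]
  have r45 : t4 * t5 = t3 := by
    rw [ht4, ht5, rr_mul hB (hu 5) (hu 3) (hu 4), ht3, rr_swap hB (hu 5) (hu 4) (ho ne45.symm)]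
  have r43 : t4 * t3 = t5 := by
    rw [← r53, mul_assoc, r33, mul_one]
  have g3 : γ * t3 * γ⁻¹ = t5 := by
    rw [ht3, rr_conj hB hO γ (hu 4) (hu 5), γ4, γ5, ht5]
  have g5 : γ * t5 * γ⁻¹ = t4 := by
    rw [ht5, rr_conj hB hO γ (hu 3) (hu 4), γ3, γ4, ht4]
  have g4 : γ * t4 * γ⁻¹ = t3 := by
    rw [ht4, rr_conj hB hO γ (hu 5) (hu 3), γ5, γ3, ht3, rr_swap hB (hu 4) (hu 5) (ho ne45)]
  have i3 : t3⁻¹ = t3 := inv_eq_of_mul_eq_one_left r33
  have i4 : t4⁻¹ = t4 := inv_eq_of_mul_eq_one_left r44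
  have i5 : t5⁻¹ = t5 := inv_eq_of_mul_eq_one_left r55
  have c4 : γ * t3 * γ⁻¹ * t3⁻¹ = t4 := by rw [g3, i3, r53]
  have c3 : γ * t5 * γ⁻¹ * t5⁻¹ = t3 := by rw [g5, i5, r45]
  have c5 : γ * t4 * γ⁻¹ * t4⁻¹ = t5 := by rw [g4, i4, r34]
  -- the action on the first three vectors
  have a3 : ∀ i : Fin 6, i.val < 3 → ∀ j k : Fin 6, 3 ≤ j.val → 3 ≤ k.val → j ≠ k →
      ac (rr hB (e j) (e k)).1 (e i) = e i := by
    intro i hi j k hj hk hjk
    have hij : i ≠ j := by intro h'; rw [h'] at hi; omega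
    have hik : i ≠ k := by intro h'; rw [h'] at hi; omega
    rw [ac_rr hB (hu j) (hu k), ho hij.symm, ho hik.symm]
    module
  have kγ := key γ γi
  have k3 := key t3 (fun i hi => a3 i hi 4 5 (by decide) (by decide) ne45)
  have k4 := key t4 (fun i hi => a3 i hi 5 3 (by decide) (by decide) ne35.symm)
  have k5 := key t5 (fun i hi => a3 i hi 3 4 (by decide) (by decide) ne34)
  -- the lifts
  set c : S := τ γ with hc
  set T4 : S := τ γ * τ t3 * (τ γ)⁻¹ * (τ t3)⁻¹ with hT4
  set T3 : S := τ γ * τ t5 * (τ γ)⁻¹ * (τ t5)⁻¹ with hT3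
  set T5 : S := τ γ * τ t4 * (τ γ)⁻¹ * (τ t4)⁻¹ with hT5
  have F4 : ∀ i : Fin 6, i.val < 3 → ac T4.1 (e i) = e i := fun i hi =>
    comm_fix (c := (τ γ).1) (d := (τ t3).1) (kγ i hi) (k3 i hi)
  have F3 : ∀ i : Fin 6, i.val < 3 → ac T3.1 (e i) = e i := fun i hi =>
    comm_fix (c := (τ γ).1) (d := (τ t5).1) (kγ i hi) (k5 i hi)
  have F5 : ∀ i : Fin 6, i.val < 3 → ac T5.1 (e i) = e i := fun i hi =>
    comm_fix (c := (τ γ).1) (d := (τ t4).1) (kγ i hi) (k4 i hi)
  have E4 : ε T4 = φ t4 := by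
    rw [hT4, map_mul, map_mul, map_mul, map_inv, map_inv, ← hφ, ← hφ, ← map_inv, ← map_inv,
      ← map_mul, ← map_mul, ← map_mul, c4]
  have E3 : ε T3 = φ t3 := by
    rw [hT3, map_mul, map_mul, map_mul, map_inv, map_inv, ← hφ, ← hφ, ← map_inv, ← map_inv,
      ← map_mul, ← map_mul, ← map_mul, c3]
  have E5 : ε T5 = φ t5 := by
    rw [hT5, map_mul, map_mul, map_mul, map_inv, map_inv, ← hφ, ← hφ, ← map_inv, ← map_inv,
      ← map_mul, ← map_mul, ← map_mul, c5]
  have Ec : ε c = φ γ := (hφ γ).symm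
  have z3 : (0 : Fin 6).val < 3 := by decide
  have fm : ∀ {g g' : S}, ac g.1 (e 0) = e 0 → ac g'.1 (e 0) = e 0 → ac (g * g').1 (e 0) = e 0 := by
    intro g g' h1 h1'
    show ac (g.1 * g'.1) (e 0) = e 0
    rw [ac_mul, h1', h1]
  have f1 : ac (1 : S).1 (e 0) = (e 0 : Fin 6 → K) := ac_one _
  have fc : ∀ {g : S}, ac g.1 (e 0) = e 0 → ac (c * g * c⁻¹).1 (e 0) = e 0 := by
    intro g hg
    show ac (c.1 * g.1 * c.1⁻¹) (e 0) = e 0
    have h1 := ac_inv c.1 (e 0)
    rw [ac_mul, ac_mul]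
    rcases kγ 0 z3 with h3 | h3
    · rw [h3] at h1
      rw [h1, hg]
      exact h3
    · rw [h3, ac_neg] at h1
      have h4 : ac c.1⁻¹ (e 0) = -e 0 := by rw [← h1, neg_neg, h1]
      rw [h4, ac_neg, hg, ac_neg, h3, neg_neg]
  have s3 : T3 * T3 = 1 := inj0 D (hu 0) (fm (F3 0 z3) (F3 0 z3)) f1 (by
    rw [map_mul, E3, ← map_mul, r33, map_one, map_one])
  have s4 : T4 * T4 = 1 := inj0 D (hu 0) (fm (F4 0 z3) (F4 0 z3)) f1 (by
    rw [map_mul, E4, ← map_mul, r44, map_one, map_one])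
  have m34 : T3 * T4 = T5 := inj0 D (hu 0) (fm (F3 0 z3) (F4 0 z3)) (F5 0 z3) (by
    rw [map_mul, E3, E4, ← map_mul, r34, E5])
  have m43 : T4 * T3 = T5 := inj0 D (hu 0) (fm (F4 0 z3) (F3 0 z3)) (F5 0 z3) (by
    rw [map_mul, E3, E4, ← map_mul, r43, E5])
  have q3 : c * T3 * c⁻¹ = T5 := inj0 D (hu 0) (fc (F3 0 z3)) (F5 0 z3) (by
    rw [map_mul, map_mul, map_inv, Ec, E3, ← map_inv, ← map_mul, ← map_mul, g3, E5])
  have q5 : c * T5 * c⁻¹ = T4 := inj0 D (hu 0) (fc (F5 0 z3)) (F4 0 z3) (by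
    rw [map_mul, map_mul, map_inv, Ec, E5, ← map_inv, ← map_mul, ← map_mul, g5, E4])
  have q4 : c * T4 * c⁻¹ = T3 := inj0 D (hu 0) (fc (F4 0 z3)) (F3 0 z3) (by
    rw [map_mul, map_mul, map_inv, Ec, E4, ← map_inv, ← map_mul, ← map_mul, g4, E3])
  have hne : T3 ≠ 1 := by
    intro h3
    have h4 : ε (rr hB (e 4) (e 5)) = 1 := by
      have h6 : φ t3 = 1 := by rw [← E3, h3, map_one]
      rw [hφx] at h6
      have h7 := mul_inv_eq_one.1 h6
      exact mul_left_cancel (h7.trans (mul_one x).symm)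
    rcases (rr_one D (hu 4) (hu 5)).1 h4 with h7 | h7
    · have := congrFun h7 4
      simp [e] at this
    · have := congrFun h7 4
      simp [e] at this
  have cv : ∀ {g g' : S}, g = g' → g.1 = g'.1 := fun h => congrArg Subtype.val h
  obtain ⟨u3, u4, u5, b, hT⟩ := exists_tri h2 (fun _ => one_ne_zero) (hO T3.2) (hO T4.2) (hO T5.2)
    (hO c.2) (cv s3) (cv s4) (cv m34) (cv m43) (cv (mul_inv_eq_iff_eq_mul.1 q3))
    (cv (mul_inv_eq_iff_eq_mul.1 q5)) (cv (mul_inv_eq_iff_eq_mul.1 q4))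
    (fun h' => hne (Subtype.ext h'))
  -- the frame
  have oi3 : ∀ i : Fin 6, i.val < 3 → B (on K 6) (e i) u3 = 0 := fun i hi =>
    orth_pm h2 (hO T4.2) (F4 i hi) hT.a43
  have oi4 : ∀ i : Fin 6, i.val < 3 → B (on K 6) (e i) u4 = 0 := fun i hi =>
    orth_pm h2 (hO T3.2) (F3 i hi) hT.a34
  have oi5 : ∀ i : Fin 6, i.val < 3 → B (on K 6) (e i) u5 = 0 := fun i hi =>
    orth_pm h2 (hO T3.2) (F3 i hi) hT.a35
  have o34 : B (on K 6) u3 u4 = 0 := orth_pm h2 (hO T3.2) hT.a33 hT.a34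
  have o35 : B (on K 6) u3 u5 = 0 := orth_pm h2 (hO T3.2) hT.a33 hT.a35
  have o45 : B (on K 6) u4 u5 = 0 := orth_pm h2 (hO T4.2) hT.a44 hT.a45
  have gram := fun s : K => gram_fr s oi3 oi4 oi5 o34 o35 o45 hT.n3 hT.n4 hT.n5
  obtain ⟨s, hs⟩ := exists_s hT.b0 (gram 1)
  obtain ⟨g, hgO, hg⟩ := exists_on (f := fr s u3 u4 u5) (by
    intro i j
    rw [gram s i j, hs]
    split_ifs <;> rfl)
  have hg0 : ∀ i : Fin 6, i.val < 3 → ac g (e i) = e i := by
    intro i hi
    rw [hg, fr_lt _ _ _ _ hi]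
  have hg3 : ac g (e 3) = s • u3 := hg 3
  have hg4 : ac g (e 4) = s • u4 := hg 4
  have hg5 : ac g (e 5) = s • u5 := hg 5
  have W3 : T3 = rr hB (ac g (e 4)) (ac g (e 5)) := by
    apply Subtype.ext
    apply ext_basis (h := g)
    intro k
    rw [rr_frame hB hgO ne45]
    rcases fin6 k with hk' | rfl | rfl | rfl
    · rw [if_neg (by rintro (h' | h') <;> exact lt3_ne hk' (by decide) h'), hg0 k hk', F3 k hk']
    · rw [if_neg (by decide), hg3, ac_smul, hT.a33]
    · rw [if_pos (by decide), hg4, ac_smul, hT.a34, smul_neg]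
    · rw [if_pos (by decide), hg5, ac_smul, hT.a35, smul_neg]
  have W4 : T4 = rr hB (ac g (e 5)) (ac g (e 3)) := by
    apply Subtype.ext
    apply ext_basis (h := g)
    intro k
    rw [rr_frame hB hgO ne35.symm]
    rcases fin6 k with hk' | rfl | rfl | rfl
    · rw [if_neg (by rintro (h' | h') <;> exact lt3_ne hk' (by decide) h'), hg0 k hk', F4 k hk']
    · rw [if_pos (by decide), hg3, ac_smul, hT.a43, smul_neg]
    · rw [if_neg (by decide), hg4, ac_smul, hT.a44]
    · rw [if_pos (by decide), hg5, ac_smul, hT.a45, smul_neg]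
  have W5 : T5 = rr hB (ac g (e 3)) (ac g (e 4)) := by
    apply Subtype.ext
    apply ext_basis (h := g)
    intro k
    rw [rr_frame hB hgO ne34]
    rcases fin6 k with hk' | rfl | rfl | rfl
    · rw [if_neg (by rintro (h' | h') <;> exact lt3_ne hk' (by decide) h'), hg0 k hk', F5 k hk']
    · rw [if_pos (by decide), hg3, ac_smul, hT.a53, smul_neg]
    · rw [if_pos (by decide), hg4, ac_smul, hT.a54, smul_neg]
    · rw [if_neg (by decide), hg5, ac_smul, hT.a55]
  have hgu : ∀ i : Fin 6, B (on K 6) (ac g (e i)) (ac g (e i)) = 1 := fun i => by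
    rw [OD_B hgO, hu]
  have Rr : ∀ i, φ (rr hB (e i) (e i)) = ε (rr hB (ac g (e i)) (ac g (e i))) := by
    intro i
    rw [rr_self hB (hu i), rr_self hB (hgu i), map_one, map_one]
  have Rt : ∀ {i j k}, φ (rr hB (e i) (e j)) = ε (rr hB (ac g (e i)) (ac g (e j))) →
      φ (rr hB (e j) (e k)) = ε (rr hB (ac g (e j)) (ac g (e k))) →
      φ (rr hB (e i) (e k)) = ε (rr hB (ac g (e i)) (ac g (e k))) := by
    intro i j k h1 h3
    rw [← rr_mul hB (hu i) (hu j) (hu k), ← rr_mul hB (hgu i) (hgu j) (hgu k), map_mul, map_mul,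
      h1, h3]
  have Rs : ∀ {i j}, φ (rr hB (e i) (e j)) = ε (rr hB (ac g (e i)) (ac g (e j))) →
      φ (rr hB (e j) (e i)) = ε (rr hB (ac g (e j)) (ac g (e i))) := by
    intro i j h1
    have h3 := Rr i
    rw [← rr_mul hB (hu i) (hu j) (hu i), ← rr_mul hB (hgu i) (hgu j) (hgu i), map_mul, map_mul,
      h1] at h3
    exact mul_left_cancel h3
  have R45 : φ (rr hB (e 4) (e 5)) = ε (rr hB (ac g (e 4)) (ac g (e 5))) := by
    rw [← W3, E3]
  have R53 : φ (rr hB (e 5) (e 3)) = ε (rr hB (ac g (e 5)) (ac g (e 3))) := by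
    rw [← W4, E4]
  have R34 : φ (rr hB (e 3) (e 4)) = ε (rr hB (ac g (e 3)) (ac g (e 4))) := by
    rw [← W5, E5]
  have R01 : φ (rr hB (e 0) (e 1)) = ε (rr hB (ac g (e 0)) (ac g (e 1))) := by
    rw [hg0 0 (by decide), hg0 1 (by decide), f01]
  have R12 : φ (rr hB (e 1) (e 2)) = ε (rr hB (ac g (e 1)) (ac g (e 2))) := by
    rw [hg0 1 (by decide), hg0 2 (by decide), f12]
  have R03 : φ (rr hB (e 0) (e 3)) = ε (rr hB (ac g (e 0)) (ac g (e 3))) := by
    have h1 := eps_neg hk hB hgO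
    have h3 := eps_neg hk hB (one_mem (OD (on K 6)))
    simp only [ac_one] at h3
    have h4 : φ (rr hB (e 0) (e 3) * rr hB (e 1) (e 2) * rr hB (e 4) (e 5)) = 1 := by
      rw [hφx, h3]
      group
    rw [map_mul, map_mul, R12, R45] at h4
    rw [map_mul, map_mul] at h1
    exact mul_right_cancel (mul_right_cancel (h4.trans h1.symm))
  have R0 : ∀ i : Fin 6, φ (rr hB (e 0) (e i)) = ε (rr hB (ac g (e 0)) (ac g (e i))) := by
    intro i
    fin_cases i
    · exact Rr 0
    · exact R01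
    · exact Rt R01 R12
    · exact R03
    · exact Rt R03 R34
    · exact Rt R03 (Rs R53)
  exact ⟨g, hgO, fun i j => Rt (Rs (R0 i)) (R0 j)⟩

end std

end Vale.Agent.P240.R2.H306
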