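import Vale.Agent.P240.R2.H306.P4b

/-!
The group `PΩ_6^+(5)`: the elements that commute with the image of the even sign changes of three
orthogonal vectors of the same norm act as isometries.
-/

set_option autoImplicit false

namespace Vale.Agent.P240.R2.H306

open Matrix
open Vale.Agent.P240.R2.H145.EO

universe u v

section aut

variable {S : Type u} [Group S] {G : Type v} [Group G]

/-- the automorphism of the image of a homomorphism given by a homomorphism with the same kernel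
and the same image -/
noncomputable def autOf (ε ψ : S →* G) (hker : ψ.ker = ε.ker) (hran : ψ.range = ε.range) :
    MulAut ε.range :=
  (QuotientGroup.quotientKerEquivRange ε).symm.trans
    ((QuotientGroup.quotientMulEquivOfEq hker.symm).trans
      ((QuotientGroup.quotientKerEquivRange ψ).trans (MulEquiv.subgroupCongr hran)))

lemma autOf_apply (ε ψ : S →* G) (hker : ψ.ker = ε.ker) (hran : ψ.range = ε.range) (s : S) :
    (autOf ε ψ hker hran ⟨ε s, s, rfl⟩ : G) = ψ s := by
  have h1 : (QuotientGroup.quotientKerEquivRange ε).symm ⟨ε s, s, rfl⟩ =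
      QuotientGroup.mk' ε.ker s := by
    rw [MulEquiv.symm_apply_eq]
    rfl
  show (MulEquiv.subgroupCongr hran (QuotientGroup.quotientKerEquivRange ψ
    (QuotientGroup.quotientMulEquivOfEq hker.symm
      ((QuotientGroup.quotientKerEquivRange ε).symm ⟨ε s, s, rfl⟩))) : G) = ψ s
  rw [h1]
  rfl

end aut

section std

variable {K : Type u} [Field K] [Fintype K]

omit [Fintype K] in
/-- conjugation of the products of two reflections by an isometry -/
lemma rr_conj' {n : ℕ} {a : Fin n → K} {S : Subgroup (GL (Fin n) K)} (hB : Big a S)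
    {h : GL (Fin n) K} (hO : h ∈ OD a) {y z : Fin n → K} (hy : B a y y = 1) (hz : B a z z = 1) :
    h * (rr hB y z).1 * h⁻¹ = (rr hB (ac h y) (ac h z)).1 := by
  have hy' : B a (ac h y) (ac h y) = 1 := by rw [OD_B hO, hy]
  have hz' : B a (ac h z) (ac h z) = 1 := by rw [OD_B hO, hz]
  have e1 : (rr hB y z).1 = rf a y (by rw [hy]; exact one_ne_zero) *
      rf a z (by rw [hz]; exact one_ne_zero) := by
    unfold rr
    rw [dif_pos ⟨hy, hz⟩]
  have e2 : (rr hB (ac h y) (ac h z)).1 = rf a (ac h y) (by rw [hy']; exact one_ne_zero) *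
      rf a (ac h z) (by rw [hz']; exact one_ne_zero) := by
    unfold rr
    rw [dif_pos ⟨hy', hz'⟩]
  rw [e1, e2, ← rf_conj hO (by rw [hy]; exact one_ne_zero) _ (Or.inl rfl),
    ← rf_conj hO (by rw [hz]; exact one_ne_zero) _ (Or.inl rfl)]
  group

/-- an element of `S` whose class is central is scalar -/
lemma cen_scal {n : ℕ} {a : Fin n → K} {S : Subgroup (GL (Fin n) K)} {G : Type v} [Group G]
    {ε : S →* G} (h : Fintype.card K = 5) (hn : 6 ≤ n) (ha : ∀ i, a i ≠ 0)
    (ha1 : ∀ i : Fin n, i.val + 1 < n → a i = 1) (hB : Big a S) (hO : S ≤ OD a) (hk : Ker ε)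
    {g : S} (hg : ∀ s, ε g * ε s = ε s * ε g) :
    ∃ l : K, g.1.1 = l • (1 : Matrix (Fin n) (Fin n) K) := by
  have h2 := five_two h
  have D : Dat a ε 1 (fun g => g) := dat1 h2 hn ha ha1 hB hO hk
  obtain ⟨l, hl⟩ := scal5 h hn ha ha1 (hO g.2) (by
    intro y hy
    obtain ⟨z, h1, hz⟩ := perp1 h2 ha ha1 (k := 1) (by omega) (on1 hy) (one_ne_zero (α := K))
    have hyz : B a y z = 0 := h1 0
    obtain ⟨w, h3, hw⟩ := perp1 h2 ha ha1 (k := 2) (by omega) (on2 hy hz hyz)
      (one_ne_zero (α := K))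
    exact fixl D hy hz hw hyz (h3 0) (h3 1) (hg _) (hg _))
  refine ⟨l, ?_⟩
  apply Matrix.ext_of_mulVec_single
  intro i
  rw [smul_mulVec, one_mulVec]
  exact hl _

variable {S : Subgroup (GL (Fin 6) K)} {G : Type v} [Group G] {ε : S →* G}

/-- the elements that commute with the image of the even sign changes of the first three
coordinates act as isometries -/
theorem p4c_std (h : Fintype.card K = 5) (hB : Big (on K 6) S) (hO : S ≤ OD (on K 6))
    (hN : ∀ u ∈ OD (on K 6), ∀ s ∈ S, u * s * u⁻¹ ∈ S) (hk : Ker ε) {x : G}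
    (hx : ∀ g, ∃ g', x * ε g * x⁻¹ = ε g')
    (h01 : x * ε (rr hB (e 0) (e 1)) = ε (rr hB (e 0) (e 1)) * x)
    (h12 : x * ε (rr hB (e 1) (e 2)) = ε (rr hB (e 1) (e 2)) * x) :
    ∃ u ∈ OD (on K 6), ∀ g g' : S, g'.1 = u * g.1 * u⁻¹ → x * ε g * x⁻¹ = ε g' := by
  have h2 := five_two h
  have hfin : Finite S := inferInstance
  choose τ hτ using hx
  obtain ⟨w, hwO, hw⟩ := std_pos h hB hO hk hτ h01 h12
  -- the two homomorphisms
  let ψ1 : S →* G := (MulAut.conj x).toMonoidHom.comp ε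
  have hψ1 : ∀ g, ψ1 g = x * ε g * x⁻¹ := fun g => rfl
  let cj : S →* S :=
    { toFun := fun g => ⟨w * g.1 * w⁻¹, hN w hwO g.1 g.2⟩
      map_one' := Subtype.ext (by
        show w * 1 * w⁻¹ = 1
        group)
      map_mul' := fun g g' => Subtype.ext (by
        show w * (g.1 * g'.1) * w⁻¹ = w * g.1 * w⁻¹ * (w * g'.1 * w⁻¹)
        group) }
  have hcj : ∀ g, (cj g).1 = w * g.1 * w⁻¹ := fun g => rfl
  let ψ2 : S →* G := ε.comp cj
  have hψ2 : ∀ g, ψ2 g = ε (cj g) := fun g => rfl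
  have ker1 : ψ1.ker = ε.ker := by
    ext g
    rw [MonoidHom.mem_ker, MonoidHom.mem_ker, hψ1]
    constructor
    · intro h1
      have h3 := mul_inv_eq_one.1 h1
      exact mul_left_cancel (h3.trans (mul_one x).symm)
    · intro h1
      rw [h1]
      group
  have ker2 : ψ2.ker = ε.ker := by
    ext g
    rw [MonoidHom.mem_ker, MonoidHom.mem_ker, hψ2, hk, hk]
    constructor
    · rintro ⟨l, hl⟩
      refine ⟨l, ?_⟩
      rw [hcj] at hl
      have h1 : g.1 = w⁻¹ * (w * g.1 * w⁻¹) * w := by group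
      rw [h1]
      show (w⁻¹).1 * (w * g.1 * w⁻¹).1 * w.1 = _
      rw [hl, mul_smul_comm, mul_one, smul_mul_assoc, ← Units.val_mul, inv_mul_cancel,
        Units.val_one]
    · rintro ⟨l, hl⟩
      refine ⟨l, ?_⟩
      rw [hcj]
      show w.1 * g.1.1 * (w⁻¹).1 = _
      rw [hl, mul_smul_comm, mul_one, smul_mul_assoc, ← Units.val_mul, mul_inv_cancel,
        Units.val_one]
  have ran2 : ψ2.range = ε.range := by
    apply le_antisymm
    · rintro _ ⟨g, rfl⟩
      exact ⟨cj g, rfl⟩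
    · rintro _ ⟨g, rfl⟩
      refine ⟨⟨w⁻¹ * g.1 * w, ?_⟩, ?_⟩
      · have := hN w⁻¹ (inv_mem hwO) g.1 g.2
        rwa [inv_inv] at this
      · rw [hψ2]
        congr 1
        apply Subtype.ext
        rw [hcj]
        show w * (w⁻¹ * g.1 * w) * w⁻¹ = g.1
        group
  have ran1 : ψ1.range = ε.range := by
    have hle : ψ1.range ≤ ε.range := by
      rintro _ ⟨g, rfl⟩
      exact ⟨τ g, (hτ g).symm⟩
    have hfin' : Finite ε.range := by
      have := Set.finite_range ε
      exact this.to_subtype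
    apply Subgroup.eq_of_le_of_card_ge hle
    have c1 : Nat.card ψ1.range = Nat.card (S ⧸ ψ1.ker) :=
      (Nat.card_congr (QuotientGroup.quotientKerEquivRange ψ1).toEquiv).symm
    have c2 : Nat.card ε.range = Nat.card (S ⧸ ε.ker) :=
      (Nat.card_congr (QuotientGroup.quotientKerEquivRange ε).toEquiv).symm
    rw [c1, c2, ker1]
  -- the automorphisms
  let A1 : MulAut ε.range := autOf ε ψ1 ker1 ran1
  let A2 : MulAut ε.range := autOf ε ψ2 ker2 ran2
  have hA1 : ∀ g : S, (A1 ⟨ε g, g, rfl⟩ : G) = ψ1 g := autOf_apply ε ψ1 ker1 ran1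
  have hA2 : ∀ g : S, (A2 ⟨ε g, g, rfl⟩ : G) = ψ2 g := autOf_apply ε ψ2 ker2 ran2
  let X : MulAut ε.range := A2⁻¹ * A1
  have hX : ∀ g g' : S, X ⟨ε g, g, rfl⟩ = ⟨ε g', g', rfl⟩ ↔ ψ1 g = ψ2 g' := by
    intro g g'
    show A2.symm (A1 ⟨ε g, g, rfl⟩) = _ ↔ _
    rw [MulEquiv.symm_apply_eq, ← hA1, ← hA2, Subtype.ext_iff]
  let E : S →* MulAut ε.range := MulAut.conj.comp ε.rangeRestrict
  have hE : ∀ g : S, E g = MulAut.conj (⟨ε g, g, rfl⟩ : ε.range) := fun g => rfl
  have hEX : ∀ y : ε.range, X * MulAut.conj y * X⁻¹ = MulAut.conj (X y) := by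
    intro y
    apply MulEquiv.ext
    intro z
    show X (y * X⁻¹ z * y⁻¹) = X y * z * (X y)⁻¹
    rw [map_mul, map_mul, map_inv]
    congr 2
    exact X.apply_symm_apply z
  have hEk : ∀ g : S, E g = 1 → ∃ l : K, g.1.1 = l • (1 : Matrix (Fin 6) (Fin 6) K) := by
    intro g hg
    refine cen_scal h le_rfl (fun _ => one_ne_zero) (fun _ _ => rfl) hB hO hk fun s => ?_
    have h1 := DFunLike.congr_fun hg (⟨ε s, s, rfl⟩ : ε.range)
    rw [hE, MulAut.conj_apply, MulAut.one_apply] at h1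
    have h3 := congrArg Subtype.val h1
    have h4 : ε g * ε s * (ε g)⁻¹ = ε s := h3
    exact mul_inv_eq_iff_eq_mul.1 h4
  have hEK : Ker E := by
    intro g
    constructor
    · exact hEk g
    · intro hl
      rw [hE]
      have h1 : (⟨ε g, g, rfl⟩ : ε.range) = 1 := Subtype.ext ((hk g).2 hl)
      rw [h1, map_one]
  have hEi : ∀ g g' : S, E g = E g' → ε g = ε g' := by
    intro g g' hgg
    have h1 : E (g⁻¹ * g') = 1 := by rw [map_mul, map_inv, hgg, inv_mul_cancel]
    have h3 := (hk _).2 (hEk _ h1)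
    rw [map_mul, map_inv, inv_mul_eq_one] at h3
    exact h3
  have hXE : ∀ g, ∃ g', X * E g * X⁻¹ = E g' := by
    intro g
    obtain ⟨g', hg'⟩ := (X ⟨ε g, g, rfl⟩).2
    refine ⟨g', ?_⟩
    rw [hE, hEX, hE]
    congr 1
    exact Subtype.ext hg'.symm
  have hu : ∀ i : Fin 6, B (on K 6) (e i) (e i) = 1 := fun i => by rw [on_e, if_pos rfl]
  obtain ⟨c, hc, hcg⟩ := eo5 h le_rfl (fun _ => one_ne_zero) (fun _ _ => rfl) hB hO hEK hXE (by
    intro i j s hi hj hij hs
    have h1 : s = rr hB (e i) (e j) := by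
      apply S_ext
      intro v
      rw [hs, ac_rr hB (hu i) (hu j), on_e, if_neg hij]
      have b1 : B (on K 6) (e i) v = v i := by rw [e, B_single]; ring
      have b2 : B (on K 6) (e j) v = v j := by rw [e, B_single]; ring
      rw [b1, b2]
      funext k
      simp only [Pi.add_apply, Pi.sub_apply, Pi.smul_apply, smul_eq_mul, e, Pi.single_apply]
      by_cases hk1 : k = i
      · subst hk1
        rw [if_pos (Or.inl rfl), if_pos rfl, if_neg hij]
        ring
      · by_cases hk2 : k = j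
        · subst hk2
          rw [if_pos (Or.inr rfl), if_pos rfl, if_neg hk1]
          ring
        · rw [if_neg (by tauto), if_neg hk1, if_neg hk2]
          ring
    subst h1
    have h3 : X ⟨ε (rr hB (e i) (e j)), _, rfl⟩ = ⟨ε (rr hB (e i) (e j)), _, rfl⟩ := by
      rw [hX, hψ1, hψ2, hw]
      congr 1
      apply Subtype.ext
      rw [hcj, rr_conj' hB hwO (hu i) (hu j)]
    have h4 : X * E (rr hB (e i) (e j)) * X⁻¹ = E (rr hB (e i) (e j)) := by
      rw [hE, hEX, h3]
    exact mul_inv_eq_iff_eq_mul.1 h4)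
  -- the diagonal isometry
  have hcc : diagonal c * diagonal c = (1 : Matrix (Fin 6) (Fin 6) K) := by
    rw [diagonal_mul_diagonal, ← diagonal_one]
    congr 1
    funext i
    rw [← pow_two, hc]
  let d : GL (Fin 6) K := ⟨diagonal c, diagonal c, hcc, hcc⟩
  have hdO : d ∈ OD (on K 6) := by
    intro y z
    rw [B_on, B_on]
    show (diagonal c *ᵥ y) ⬝ᵥ (diagonal c *ᵥ z) = _
    unfold dotProduct
    refine Finset.sum_congr rfl fun i _ => ?_
    rw [mulVec_diagonal, mulVec_diagonal]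
    linear_combination y i * z i * hc i
  refine ⟨w * d, mul_mem hwO hdO, fun g g' hgg => ?_⟩
  -- the conjugate by the diagonal isometry
  let g1 : S := ⟨d * g.1 * d⁻¹, hN d hdO g.1 g.2⟩
  have hg1 : ∀ i j, g1.1.1 i j * c j = c i * g.1.1 i j := by
    intro i j
    show (diagonal c * g.1.1 * diagonal c) i j * c j = _
    rw [mul_diagonal, diagonal_mul]
    linear_combination c i * g.1.1 i j * hc j
  have h3 := hcg g g1 hg1
  rw [hE, hEX] at h3
  obtain ⟨g2, hg2⟩ := (X ⟨ε g, g, rfl⟩).2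
  have h4 : X ⟨ε g, g, rfl⟩ = ⟨ε g2, g2, rfl⟩ := Subtype.ext hg2.symm
  rw [h4] at h3
  have h6 : ε g2 = ε g1 := hEi g2 g1 h3
  have h7 : X ⟨ε g, g, rfl⟩ = ⟨ε g1, g1, rfl⟩ := by
    rw [h4]
    exact Subtype.ext h6
  rw [hX, hψ1, hψ2] at h7
  rw [h7]
  congr 1
  apply Subtype.ext
  rw [hcj, hgg]
  show w * (d * g.1 * d⁻¹) * w⁻¹ = w * d * g.1 * (w * d)⁻¹
  group

end std

end Vale.Agent.P240.R2.H306
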