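import Vale.Agent.P240.R2.H306.C5

/-!
Fields with five elements: automorphisms of `PΩ_n` that centralize the products of the reflections
of an orthonormal `n - 1`-frame are diagonal.
-/

set_option autoImplicit false

namespace Vale.Agent.P240.R2.H306

open Matrix
open Vale.Agent.P240.R2.H145.EO

universe u v

section scal

variable {K : Type u} [Field K] [Fintype K] {n : ℕ} {a : Fin n → K}

/-- an isometry that preserves all unit vectors up to sign is `±1` -/
lemma scal5 (h : Fintype.card K = 5) (hn : 6 ≤ n) (ha : ∀ i, a i ≠ 0)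
    (ha1 : ∀ i : Fin n, i.val + 1 < n → a i = 1) {g : GL (Fin n) K} (hO : g ∈ OD a)
    (hg : ∀ y, B a y y = 1 → PM y (ac g y)) : ∃ l : K, ∀ y, ac g y = l • y := by
  have h2 := five_two h
  have h5 := five_zero h
  have hs : ∀ y, B a y y = 1 → ∃ s : K, s ^ 2 = 1 ∧ ac g y = s • y := by
    intro y hy
    rcases hg y hy with h3 | h3
    · exact ⟨1, by ring, by rw [h3, one_smul]⟩
    · exact ⟨-1, by ring, by rw [h3, neg_one_smul]⟩
  have hc : ∀ {y z : Fin n → K} {s t : K}, s ^ 2 = 1 → ac g y = s • y → ac g z = t • z →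
      B a y z ≠ 0 → t = s := by
    intro y z s t hs1 h3 h4 h6
    have e1 := OD_B hO y z
    rw [h3, h4, B_smul_left, B_smul_right] at e1
    have e2 : s * t = 1 := by
      apply mul_right_cancel₀ h6
      rw [one_mul, mul_assoc]
      exact e1
    linear_combination s * e2 - t * hs1
  let o : Fin n := ⟨0, by omega⟩
  let i1 : Fin n := ⟨1, by omega⟩
  let il : Fin n := ⟨n - 1, by omega⟩
  have ho : o.val + 1 < n := by show 0 + 1 < n; omega
  have hi1 : i1.val + 1 < n := by show 1 + 1 < n; omega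
  have ho1 : o ≠ i1 := by simp [o, i1]
  have hol : o ≠ il := by
    intro h3
    have := congrArg Fin.val h3
    simp only [il, o] at this
    omega
  have h1l : i1 ≠ il := by
    intro h3
    have := congrArg Fin.val h3
    simp only [il, i1] at this
    omega
  have hu : ∀ {i : Fin n}, i.val + 1 < n → B a (Pi.single i 1) (Pi.single i 1 : Fin n → K) = 1 := by
    intro i hi
    rw [B_e ha1 hi, Pi.single_eq_same]
  obtain ⟨l, hl, hlo⟩ := hs _ (hu ho)
  -- the vectors with nonzero first coordinate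
  have hw : ∀ y, B a y y = 1 → y o ≠ 0 → ac g y = l • y := by
    intro y hy hy0
    obtain ⟨s, hs1, hsy⟩ := hs y hy
    rw [hsy, hc hl hlo hsy (by rw [B_e ha1 ho]; exact hy0)]
  have hi : ∀ i : Fin n, i.val + 1 < n → ac g (Pi.single i 1) = l • (Pi.single i 1 : Fin n → K) := by
    intro i hi
    by_cases hio : i = o
    · rw [hio]; exact hlo
    obtain ⟨k, hk, hko, hki⟩ := exists_third hn o i
    obtain ⟨y, hy, y1, y2, _⟩ := exists_u3 h ha ha1 (Ne.symm hio) (Ne.symm hko) (Ne.symm hki) ho hi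
    obtain ⟨s, hs1, hsi⟩ := hs _ (hu hi)
    rw [hsi, hc hl (hw y hy y1) hsi (by rw [B_comm, B_e ha1 hi]; exact y2)]
  have hsm : ∀ (i : Fin n) (t : K), (Pi.single i t : Fin n → K) = t • Pi.single i 1 := by
    intro i t
    rw [← Pi.single_smul, smul_eq_mul, mul_one]
  have hil : ac g (Pi.single il 1) = l • (Pi.single il 1 : Fin n → K) := by
    obtain ⟨p, r, p0, r0, hpr⟩ : ∃ p r : K, p ≠ 0 ∧ r ≠ 0 ∧
        B a (w3 o i1 il p p r) (w3 o i1 il p p r) = 1 := by
      rcases exists_scale h (ha il) with ⟨t, t0, ht⟩ | ⟨t, z, t0, z0, ht, hz⟩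
      · refine ⟨1, 2 * t, one_ne_zero, mul_ne_zero h2 t0, ?_⟩
        rw [B_w3, w3_i ho1 hol, w3_j ho1 h1l, w3_k hol h1l, ha1 o ho, ha1 i1 hi1]
        linear_combination 4 * ht + h5
      · refine ⟨2, z, h2, z0, ?_⟩
        rw [B_w3, w3_i ho1 hol, w3_j ho1 h1l, w3_k hol h1l, ha1 o ho, ha1 i1 hi1]
        linear_combination hz + 2 * h5
    have h3 := hw _ hpr (by rw [w3_i ho1 hol]; exact p0)
    have h4 : w3 o i1 il p p r = p • Pi.single o 1 + p • Pi.single i1 1 + r • Pi.single il 1 := by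
      rw [← hsm, ← hsm, ← hsm]
      rfl
    rw [h4, ac_add, ac_add, ac_smul, ac_smul, ac_smul, hi o ho, hi i1 hi1] at h3
    have h6 : r • ac g (Pi.single il 1) = r • (l • (Pi.single il 1 : Fin n → K)) := by
      have h7 : r • ac g (Pi.single il 1) =
          (p • l • Pi.single o 1 + p • l • Pi.single i1 1 + r • ac g (Pi.single il 1)) -
          (p • l • Pi.single o 1 + p • l • Pi.single i1 1 : Fin n → K) := by abel
      rw [h7, h3]
      module
    exact smul_right_injective _ r0 h6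
  refine ⟨l, fun y => ?_⟩
  have hall : ∀ i : Fin n, ac g (Pi.single i 1) = l • (Pi.single i 1 : Fin n → K) := by
    intro i
    by_cases hi2 : i.val + 1 < n
    · exact hi i hi2
    · have h3 : i = il := by
        apply Fin.ext
        show i.val = n - 1
        have := i.2
        omega
      rw [h3]
      exact hil
  have hmat : g.1 = l • (1 : Matrix (Fin n) (Fin n) K) := by
    apply Matrix.ext_of_mulVec_single
    intro i
    rw [smul_mulVec, one_mulVec]
    exact hall i
  show g.1 *ᵥ y = _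
  rw [hmat, smul_mulVec, one_mulVec]

end scal

/-- the result: `StmtEO` over a field with five elements -/
def StmtEO5 : Prop :=
  ∀ (K : Type u) [Field K] [Fintype K], (2 : K) ≠ 0 → Fintype.card K = 5 → ∀ (n : ℕ), 6 ≤ n →
    ∀ (a : Fin n → K), (∀ i, a i ≠ 0) → (∀ i : Fin n, i.val + 1 < n → a i = 1) →
    ∀ (S : Subgroup (GL (Fin n) K)), Big a S → S ≤ OD a →
    ∀ (G : Type v) [Group G] (ε : S →* G), Ker ε → ∀ x : G,
    (∀ g, ∃ g', x * ε g * x⁻¹ = ε g') →
    (∀ (i j : Fin n) (s : S), i.val + 1 < n → j.val + 1 < n → i ≠ j →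
      (∀ y, ac s.1 y = fun k => if k = i ∨ k = j then -y k else y k) → x * ε s = ε s * x) →
    ∃ (σ : K ≃+* K) (c : Fin n → K), (∀ i, c i ^ 2 * a i = σ (a i)) ∧
      ∀ g g' : S, (∀ i j, g'.1.1 i j * c j = c i * σ (g.1.1 i j)) → x * ε g * x⁻¹ = ε g'

/-- automorphisms that centralize the products of the reflections of an orthonormal `n - 1`-frame
are diagonal -/
theorem eo5 {K : Type u} [Field K] [Fintype K] (h : Fintype.card K = 5) {n : ℕ} (hn : 6 ≤ n)
    {a : Fin n → K} (ha : ∀ i, a i ≠ 0) (ha1 : ∀ i : Fin n, i.val + 1 < n → a i = 1)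
    {S : Subgroup (GL (Fin n) K)} (hB : Big a S) (hO : S ≤ OD a) {G : Type v} [Group G]
    {ε : S →* G} (hk : Ker ε) {x : G} (hx : ∀ g, ∃ g', x * ε g * x⁻¹ = ε g')
    (hcom : ∀ (i j : Fin n) (s : S), i.val + 1 < n → j.val + 1 < n → i ≠ j →
      (∀ y, ac s.1 y = fun k => if k = i ∨ k = j then -y k else y k) → x * ε s = ε s * x) :
    ∃ c : Fin n → K, (∀ i, c i ^ 2 = 1) ∧
      ∀ g g' : S, (∀ i j, g'.1.1 i j * c j = c i * g.1.1 i j) → x * ε g * x⁻¹ = ε g' := by
  have h2 := five_two h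
  have h5 := five_zero h
  choose τ hτ using hx
  have D : Dat a ε x τ := ⟨h2, hn, ha, ha1, hB, hO, hk, hτ, hcom⟩
  set f := ff D.hn τ with hf0
  have hf : FE a ε x f τ := fe_of_connK (connK h) D
  have hsq : ∀ y z, B a y y = 1 → B a z z = 1 → B a (f y) (f z) ^ 2 = B a y z ^ 2 := by
    intro y z hy hz
    by_cases h1 : B a y z ^ 2 = 1
    · rw [h1, (hf.one y z hy hz).2 h1]
    by_cases h0 : B a y z = 0
    · rw [h0, (hf.orth y z hy hz).2 h0]
    have h1' : B a (f y) (f z) ^ 2 ≠ 1 := fun h3 => h1 ((hf.one y z hy hz).1 h3)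
    have h0' : B a (f y) (f z) ≠ 0 := fun h3 => h0 ((hf.orth y z hy hz).1 h3)
    have e1 : B a y z ^ 2 = 4 := by
      rcases five_sq h (B a y z) with h3 | h3 | h3
      · exact absurd (pow_eq_zero_iff two_ne_zero |>.1 h3) h0
      · exact absurd h3 h1
      · exact h3
    have e2 : B a (f y) (f z) ^ 2 = 4 := by
      rcases five_sq h (B a (f y) (f z)) with h3 | h3 | h3
      · exact absurd (pow_eq_zero_iff two_ne_zero |>.1 h3) h0'
      · exact absurd h3 h1'
      · exact h3
    rw [e1, e2]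
  have hco : ∀ y, B a y y = 1 → ∀ i : Fin n, i.val + 1 < n → f y i ^ 2 = y i ^ 2 := by
    intro y hy i hi
    have hu : B a (Pi.single i 1) (Pi.single i 1 : Fin n → K) = 1 := by
      rw [B_e ha1 hi, Pi.single_eq_same]
    have e1 := hsq _ _ hu hy
    have e3 : B a (f (Pi.single i 1)) (f y) ^ 2 = B a (Pi.single i 1) (f y) ^ 2 :=
      H275.PM_sq' (hf.base i hi)
    rw [e3, B_e ha1 hi, B_e ha1 hi] at e1
    exact e1
  have hP : SqP a f := by
    refine ⟨hf.unit, hsq, fun y hy i => ?_⟩
    by_cases hi : i.val + 1 < n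
    · exact hco y hy i hi
    · have e1 := hf.unit y hy
      rw [← hy] at e1
      unfold B at e1
      rw [← Finset.add_sum_erase Finset.univ (fun i => a i * f y i * f y i) (Finset.mem_univ i),
        ← Finset.add_sum_erase Finset.univ (fun i => a i * y i * y i) (Finset.mem_univ i)] at e1
      have e2 : ∑ k ∈ Finset.univ.erase i, a k * f y k * f y k =
          ∑ k ∈ Finset.univ.erase i, a k * y k * y k := by
        refine Finset.sum_congr rfl fun k hk => ?_
        have hki : k ≠ i := Finset.ne_of_mem_erase hk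
        have hk1 : k.val + 1 < n := by
          have h1 := i.2
          have h2 := k.2
          by_contra h3
          exact hki (Fin.ext (by omega))
        linear_combination a k * hco y hy k hk1
      rw [e2] at e1
      apply mul_left_cancel₀ (ha i)
      linear_combination e1
  obtain ⟨c, hc, hfc⟩ := wig5 h hn ha ha1 hP
  refine ⟨c, hc, fun g g' hgg => ?_⟩
  -- the diagonal map
  let C : (Fin n → K) → Fin n → K := fun y i => c i * y i
  have hCB : ∀ y z, B a (C y) (C z) = B a y z := by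
    intro y z
    show ∑ i, a i * (c i * y i) * (c i * z i) = ∑ i, a i * y i * z i
    refine Finset.sum_congr rfl fun i _ => ?_
    linear_combination a i * y i * z i * hc i
  have hCg : ∀ y, C (ac g.1 y) = ac g'.1 (C y) := by
    intro y
    funext i
    show c i * (∑ j, g.1.1 i j * y j) = ∑ j, g'.1.1 i j * (c j * y j)
    rw [Finset.mul_sum]
    refine Finset.sum_congr rfl fun j _ => ?_
    rw [← mul_assoc, ← hgg i j]
    ring
  have hCC : ∀ w, C (C w) = w := by
    intro w
    funext i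
    show c i * (c i * w i) = w i
    linear_combination w i * hc i
  -- compare `τ g` and `g'`
  have hcmp : ∀ w, B a w w = 1 → PM w (ac ((g'.1)⁻¹ * (τ g).1) w) := by
    intro w hw
    obtain ⟨y, rfl⟩ : ∃ y, C y = w := ⟨C w, hCC w⟩
    have hy : B a y y = 1 := by rw [← hCB, hw]
    have hgy : B a (ac g.1 y) (ac g.1 y) = 1 := by rw [OD_B (hO g.2), hy]
    have e1 : PM (C y) (f y) := hfc y hy
    have e2 : PM (C (ac g.1 y)) (f (ac g.1 y)) := hfc _ hgy
    have e3 := hf.equi g y hy
    have e4 : PM (ac (τ g).1 (C y)) (ac g'.1 (C y)) := by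
      have h6 : PM (ac (τ g).1 (C y)) (f (ac g.1 y)) := H275.PM.tr (H275.PM.ac (τ g).1 e1) e3
      have h7 := H275.PM.tr h6 (H275.PM.sm e2)
      rw [hCg] at h7
      exact h7
    have e5 := H275.PM.ac (g'.1)⁻¹ (H275.PM.sm e4)
    rw [ac_inv, ← ac_mul] at e5
    exact e5
  obtain ⟨l, hl⟩ := scal5 h hn ha ha1 (mul_mem (inv_mem (hO g'.2)) (hO (τ g).2)) hcmp
  have hmat : (g'⁻¹ * τ g : S).1.1 = l • (1 : Matrix (Fin n) (Fin n) K) := by
    apply Matrix.ext_of_mulVec_single
    intro i
    rw [smul_mulVec, one_mulVec]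
    exact hl _
  have h1 := (hk (g'⁻¹ * τ g)).2 ⟨l, hmat⟩
  rw [map_mul, map_inv, inv_mul_eq_one] at h1
  rw [hf.tau, h1]

/-- `StmtEO` over a field with five elements -/
theorem stmtEO5 : StmtEO5.{u, v} := by
  intro K _ _ _ h n hn a ha ha1 S hB hO G _ ε hk x hx hcom
  obtain ⟨c, hc, hg⟩ := eo5 h hn ha ha1 hB hO hk hx hcom
  refine ⟨RingEquiv.refl K, c, fun i => ?_, fun g g' hgg => hg g g' fun i j => ?_⟩
  · rw [hc, one_mul]
    rfl
  · exact hgg i j

end Vale.Agent.P240.R2.H306
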