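import Vale.Agent.P240.R2.H306.P4c
import Vale.Agent.P240.R2.H458.PD

/-!
The group `PΩ_6^+(5)`: the statements (S1) and (S2) of the list in `H458.PD`.
-/

set_option autoImplicit false

namespace Vale.Agent.P240.R2.H306

open Matrix
open Vale.Agent.P240.R2.H145.EO
open Vale.Agent.P240.R2.H401.D (POD SD0 SD SD0_normal)
open Vale.Agent.P240.R2.H406 (Lam Phi sg rfl' act)
open Vale.Agent.P240.R2.H458 (a1 StmtSem6 StmtKer6)

/-- the number of elements of `ZMod 5` -/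
lemma card5 : Fintype.card (ZMod 5) = 5 := ZMod.card 5

lemma two5 : (2 : ZMod 5) ≠ 0 := by decide

/-- central isometries are scalar -/
lemma cen_of (z : ↥(OD a1)) (hz : z ∈ Subgroup.center ↥(OD a1)) :
    ∃ l : ZMod 5, z.1.1 = l • (1 : Matrix (Fin 6) (Fin 6) (ZMod 5)) := by
  obtain ⟨l, hl⟩ := scal5 card5 le_rfl (a := a1) (fun _ => one_ne_zero) (fun _ _ => rfl) z.2 (by
    intro y hy
    have hy0 : B a1 y y ≠ 0 := by rw [hy]; exact one_ne_zero
    have hzy : B a1 (ac z.1 y) (ac z.1 y) = 1 := by rw [OD_B z.2, hy]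
    have hz0 : B a1 (ac z.1 y) (ac z.1 y) ≠ 0 := by rw [hzy]; exact one_ne_zero
    have h1 := Subgroup.mem_center_iff.1 hz ⟨rf a1 y hy0, rf_mem hy0⟩
    have h3 : z.1 * rf a1 y hy0 * z.1⁻¹ = rf a1 y hy0 := by
      rw [mul_inv_eq_iff_eq_mul]
      exact (congrArg Subtype.val h1).symm
    rw [rf_conj z.2 hy0 hz0 (Or.inl rfl)] at h3
    have h4 : ac (rf a1 (ac z.1 y) hz0) y = ac (rf a1 y hy0) y := by rw [h3]
    rw [ac_rf, ac_rf, hy, hzy] at h4
    set c := B a1 (ac z.1 y) y with hc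
    have h5 : (2 : ZMod 5) • y = (2 : ZMod 5) • (c • ac z.1 y) := by
      have h6 : (2 : ZMod 5) • y = y - (y - (2 * 1 / 1 : ZMod 5) • y) := by
        rw [mul_one, div_one]; abel
      rw [h6, ← h4, mul_div_assoc, div_one]
      module
    have h6 : y = c • ac z.1 y := smul_right_injective _ two5 h5
    have h7 : c * c = 1 := by
      have h8 := hy
      rw [h6, B_smul_left, B_smul_right, hzy, mul_one] at h8
      exact h8
    have h9 : (c - 1) * (c + 1) = 0 := by linear_combination h7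
    rcases mul_eq_zero.1 h9 with h10 | h10
    · left
      have h11 : c = 1 := sub_eq_zero.1 h10
      rw [h11, one_smul] at h6
      exact h6.symm
    · right
      have h11 : c = -1 := eq_neg_of_add_eq_zero_left h10
      rw [h11, neg_smul, one_smul] at h6
      nth_rewrite 2 [h6]
      rw [neg_neg])
  refine ⟨l, ?_⟩
  apply Matrix.ext_of_mulVec_single
  intro i
  rw [smul_mulVec, one_mulVec]
  exact hl _

/-- scalar isometries are central -/
lemma cen_to (z : ↥(OD a1)) {l : ZMod 5} (hz : z.1.1 = l • (1 : Matrix (Fin 6) (Fin 6) (ZMod 5))) :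
    z ∈ Subgroup.center ↥(OD a1) := by
  rw [Subgroup.mem_center_iff]
  intro g
  apply Subtype.ext
  apply Units.ext
  show g.1.1 * z.1.1 = z.1.1 * g.1.1
  rw [hz, mul_smul_comm, smul_mul_assoc, mul_one, one_mul]

/-- products of two reflections of the same norm are commutators -/
lemma mem_comm {u v : Fin 6 → ZMod 5} (hu : B a1 u u ≠ 0) (hv : B a1 v v ≠ 0)
    (huv : B a1 u u = B a1 v v) :
    (⟨rf a1 u hu * rf a1 v hv, mul_mem (rf_mem hu) (rf_mem hv)⟩ : ↥(OD a1)) ∈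
      commutator ↥(OD a1) := by
  obtain ⟨g, hg, hgu⟩ : ∃ g ∈ OD a1, ac g u = v ∨ ac g u = -v := by
    rcases exists_pm two5 hu huv with h | h
    · exact ⟨rf a1 _ h, rf_mem h, Or.inl (rf_sub huv h)⟩
    · exact ⟨rf a1 _ h, rf_mem h, Or.inr (rf_add huv h)⟩
  have h1 := rf_conj hg hu hv hgu
  have h3 : (⟨rf a1 u hu * rf a1 v hv, mul_mem (rf_mem hu) (rf_mem hv)⟩ : ↥(OD a1)) =
      (⟨rf a1 u hu, rf_mem hu⟩ : ↥(OD a1)) * (⟨g, hg⟩ : ↥(OD a1)) *
        (⟨rf a1 u hu, rf_mem hu⟩ : ↥(OD a1))⁻¹ * (⟨g, hg⟩ : ↥(OD a1))⁻¹ := by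
    apply Subtype.ext
    show rf a1 u hu * rf a1 v hv = rf a1 u hu * g * (rf a1 u hu)⁻¹ * g⁻¹
    rw [rf_inv, ← h1]
    group
  rw [h3]
  exact Subgroup.commutator_mem_commutator (Subgroup.mem_top (⟨rf a1 u hu, rf_mem hu⟩ : ↥(OD a1)))
    (Subgroup.mem_top (⟨g, hg⟩ : ↥(OD a1)))

lemma comm_SD0 {g : ↥(OD a1)} (hg : g ∈ commutator ↥(OD a1)) : g ∈ SD0 a1 := by
  show QuotientGroup.mk' _ g ∈ commutator (POD a1)
  have h1 : (commutator ↥(OD a1)).map (QuotientGroup.mk' (Subgroup.center ↥(OD a1))) ≤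
      commutator (POD a1) := by
    rw [commutator_def, Subgroup.map_commutator]
    exact Subgroup.commutator_mono le_top le_top
  exact h1 ⟨g, hg, rfl⟩

lemma big_SD : Big a1 (SD a1) := by
  intro u v hu hv huv
  exact ⟨_, comm_SD0 (mem_comm hu hv huv), rfl⟩

lemma SD_le : SD a1 ≤ OD a1 := by
  rintro _ ⟨g, _, rfl⟩
  exact g.2

lemma big_OD : Big a1 (OD a1) := fun u v hu hv _ => mul_mem (rf_mem hu) (rf_mem hv)

/-- the canonical map -/
abbrev pj : ↥(OD a1) →* POD a1 := QuotientGroup.mk' (Subgroup.center ↥(OD a1))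

lemma ker_pj : Ker pj := by
  intro g
  rw [QuotientGroup.mk'_apply, QuotientGroup.eq_one_iff]
  exact ⟨cen_of g, fun ⟨l, hl⟩ => cen_to g hl⟩

/-- the inner automorphisms -/
lemma Phi_SD0 {g : ↥(OD a1)} (hg : g ∈ SD0 a1) :
    Phi a1 g = MulAut.conj (⟨pj g, hg⟩ : Lam a1) := by
  apply MulEquiv.ext
  intro y
  apply Subtype.ext
  rfl

lemma Phi_coe (g : ↥(OD a1)) (y : Lam a1) : ((Phi a1 g y : Lam a1) : POD a1) =
    pj g * y * (pj g)⁻¹ := rfl

/-- isometries that act trivially are scalar -/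
lemma Phi_one {g : ↥(OD a1)} (hg : Phi a1 g = 1) :
    ∃ l : ZMod 5, g.1.1 = l • (1 : Matrix (Fin 6) (Fin 6) (ZMod 5)) := by
  have h2 := two5
  have D : Dat a1 pj 1 (fun g => g) :=
    dat1 h2 le_rfl (fun _ => one_ne_zero) (fun _ _ => rfl) big_OD le_rfl ker_pj
  have hr : ∀ {y z : Fin 6 → ZMod 5}, B a1 y y = 1 → B a1 z z = 1 →
      pj g * pj (rr D.big y z) = pj (rr D.big y z) * pj g := by
    intro y z hy hz
    have hy0 : B a1 y y ≠ 0 := by rw [hy]; exact one_ne_zero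
    have hz0 : B a1 z z ≠ 0 := by rw [hz]; exact one_ne_zero
    have h1 : rr D.big y z = ⟨rf a1 y hy0 * rf a1 z hz0, mul_mem (rf_mem hy0) (rf_mem hz0)⟩ := by
      unfold rr
      rw [dif_pos ⟨hy, hz⟩]
    have h3 : rr D.big y z ∈ SD0 a1 := by
      rw [h1]
      exact comm_SD0 (mem_comm hy0 hz0 (by rw [hy, hz]))
    have h4 := DFunLike.congr_fun hg (⟨pj (rr D.big y z), h3⟩ : Lam a1)
    have h5 := congrArg Subtype.val h4
    rw [Phi_coe] at h5
    exact mul_inv_eq_iff_eq_mul.1 h5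
  obtain ⟨l, hl⟩ := scal5 card5 le_rfl (a := a1) (fun _ => one_ne_zero) (fun _ _ => rfl) g.2 (by
    intro y hy
    obtain ⟨z, h1, hz⟩ := perp1 h2 (a := a1) (fun _ => one_ne_zero) (fun _ _ => rfl) (k := 1)
      (by omega) (on1 hy) (one_ne_zero (α := ZMod 5))
    have hyz : B a1 y z = 0 := h1 0
    obtain ⟨w, h3, hw⟩ := perp1 h2 (a := a1) (fun _ => one_ne_zero) (fun _ _ => rfl) (k := 2)
      (by omega) (on2 hy hz hyz) (one_ne_zero (α := ZMod 5))
    exact fixl D hy hz hw hyz (h3 0) (h3 1) (hr hy hz) (hr hy hw))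
  refine ⟨l, ?_⟩
  apply Matrix.ext_of_mulVec_single
  intro i
  rw [smul_mulVec, one_mulVec]
  exact hl _

lemma Phi_scal {g : ↥(OD a1)} {l : ZMod 5}
    (hg : g.1.1 = l • (1 : Matrix (Fin 6) (Fin 6) (ZMod 5))) : Phi a1 g = 1 := by
  have h1 : pj g = 1 := (ker_pj g).2 ⟨l, hg⟩
  apply MulEquiv.ext
  intro y
  apply Subtype.ext
  rw [Phi_coe, h1, one_mul, inv_one, mul_one]
  rfl

/-- (S2) the kernel -/
theorem stmtKer6 : StmtKer6 := by
  intro g
  constructor
  · intro hg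
    obtain ⟨l, hl⟩ := Phi_one hg
    have hac : ∀ v, ac g.1 v = l • v := by
      intro v
      show g.1.1 *ᵥ v = _
      rw [hl, smul_mulVec, one_mulVec]
    have h1 : l * l = 1 := by
      have h3 := OD_B g.2 (e 0) (e 0 : Fin 6 → ZMod 5)
      have h4 : B a1 (e 0) (e 0) = 1 := on_e 0 0
      rw [hac, B_smul_left, B_smul_right, h4, mul_one] at h3
      exact h3
    have h9 : (l - 1) * (l + 1) = 0 := by linear_combination h1
    rcases mul_eq_zero.1 h9 with h10 | h10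
    · left
      apply Subtype.ext
      apply gl_ext
      intro v
      rw [hac, sub_eq_zero.1 h10, one_smul]
      exact (ac_one v).symm
    · right
      apply Subtype.ext
      apply gl_ext
      intro v
      rw [hac, eq_neg_of_add_eq_zero_left h10, neg_smul, one_smul]
      have h11 := Vale.Agent.P240.R2.H406.act_sg (a := a1) Finset.univ v
      rw [show ac (sg a1 Finset.univ).1 v = act (sg a1 Finset.univ) v from rfl, h11]
      funext k
      simp
  · rintro (h | h)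
    · rw [h, map_one]
    · apply Phi_scal (l := -1)
      rw [h]
      show (sg a1 Finset.univ).1.1 = _
      rw [Vale.Agent.P240.R2.H406.sg_coe]
      ext i j
      simp [diagonal_apply, one_apply]

lemma SD_conj_mem (u : GL (Fin 6) (ZMod 5)) (hu : u ∈ OD a1) (s : GL (Fin 6) (ZMod 5))
    (hs : s ∈ SD a1) : u * s * u⁻¹ ∈ SD a1 := by
  obtain ⟨g, hg, hgs⟩ := hs
  have h1 : (⟨u, hu⟩ : ↥(OD a1)) * g * (⟨u, hu⟩ : ↥(OD a1))⁻¹ ∈ SD0 a1 :=
    (SD0_normal a1).conj_mem g hg ⟨u, hu⟩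
  refine ⟨_, h1, ?_⟩
  rw [← hgs]
  rfl

/-- the inclusion -/
def inc6 : ↥(SD a1) →* ↥(OD a1) := Subgroup.inclusion SD_le

lemma inc6_coe (s : ↥(SD a1)) : (inc6 s).1 = s.1 := rfl

lemma inc6_mem (s : ↥(SD a1)) : inc6 s ∈ SD0 a1 := by
  obtain ⟨g, hg, hgs⟩ := s.2
  have h1 : inc6 s = g := Subtype.ext hgs.symm
  rw [h1]
  exact hg

/-- the homomorphism -/
noncomputable def eps6 : ↥(SD a1) →* MulAut (Lam a1) := (Phi a1).comp inc6

lemma eps6_apply (s : ↥(SD a1)) : eps6 s = Phi a1 (inc6 s) := rfl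

lemma ker_eps6 : Ker eps6 := by
  intro s
  constructor
  · intro h
    exact Phi_one (g := inc6 s) h
  · rintro ⟨l, hl⟩
    have h1 : (inc6 s).1.1 = l • (1 : Matrix (Fin 6) (Fin 6) (ZMod 5)) := by
      rw [inc6_coe]
      exact hl
    rw [eps6_apply]
    exact Phi_scal h1

lemma conj_aut (α : MulAut (Lam a1)) (y : Lam a1) :
    α * MulAut.conj y * α⁻¹ = MulAut.conj (α y) := by
  apply MulEquiv.ext
  intro z
  show α (y * α⁻¹ z * y⁻¹) = α y * z * (α y)⁻¹
  rw [map_mul, map_mul, map_inv]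
  congr 2
  exact α.apply_symm_apply z

lemma exists_SD0 (y : Lam a1) : ∃ g : ↥(OD a1), ∃ hg : g ∈ SD0 a1, (⟨pj g, hg⟩ : Lam a1) = y := by
  obtain ⟨g, hg⟩ := QuotientGroup.mk'_surjective _ y.1
  have hg0 : g ∈ SD0 a1 := by
    show pj g ∈ commutator (POD a1)
    rw [show pj g = y.1 from hg]
    exact y.2
  exact ⟨g, hg0, Subtype.ext hg⟩

lemma sur_eps6 (y : Lam a1) : ∃ s, eps6 s = MulAut.conj y := by
  obtain ⟨g, hg, hgy⟩ := exists_SD0 y
  refine ⟨⟨g.1, g, hg, rfl⟩, ?_⟩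
  have h1 : inc6 ⟨g.1, g, hg, rfl⟩ = g := Subtype.ext rfl
  rw [eps6_apply, h1, Phi_SD0 hg, hgy]

/-- the center is trivial -/
lemma conj_inj6 {z z' : Lam a1} (hzz : MulAut.conj z = MulAut.conj z') : z = z' := by
  have h4 : MulAut.conj (z⁻¹ * z') = 1 := by rw [map_mul, map_inv, hzz, inv_mul_cancel]
  obtain ⟨g, hg, hgz⟩ := exists_SD0 (z⁻¹ * z')
  have h5 : Phi a1 g = 1 := by rw [Phi_SD0 hg, hgz, h4]
  obtain ⟨l, hl⟩ := Phi_one h5
  have h6 : pj g = 1 := (ker_pj g).2 ⟨l, hl⟩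
  have h7 : z⁻¹ * z' = 1 := by
    rw [← hgz]
    exact Subtype.ext h6
  exact inv_mul_eq_one.1 h7

lemma eps6_rr (i j : Fin 6) (hij : i ≠ j) :
    eps6 (rr big_SD (e i) (e j)) = Phi a1 (sg a1 {i, j}) := by
  rw [eps6_apply]
  congr 1
  apply Subtype.ext
  apply gl_ext
  intro v
  have hu : ∀ i : Fin 6, B a1 (e i) (e i) = 1 := fun i => by
    have := on_e (K := ZMod 5) i i
    rwa [if_pos rfl] at this
  have h0 : B a1 (e i) (e j) = 0 := by
    have := on_e (K := ZMod 5) i j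
    rwa [if_neg hij] at this
  have h11 := Vale.Agent.P240.R2.H406.act_sg (a := a1) {i, j} v
  have h12 : ac (sg a1 {i, j}).1 v = fun k => if k ∈ ({i, j} : Finset (Fin 6)) then - v k else v k :=
    h11
  rw [h12, inc6_coe, ac_rr big_SD (hu i) (hu j), h0]
  have b1 : B a1 (e i) v = v i := by rw [e, B_single]; ring
  have b2 : B a1 (e j) v = v j := by rw [e, B_single]; ring
  rw [b1, b2]
  funext k
  simp only [Pi.add_apply, Pi.sub_apply, Pi.smul_apply, smul_eq_mul, e, Pi.single_apply,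
    Finset.mem_insert, Finset.mem_singleton]
  by_cases hk1 : k = i
  · subst hk1
    rw [if_pos (Or.inl rfl), if_pos rfl, if_neg hij]
    ring
  · by_cases hk2 : k = j
    · subst hk2
      rw [if_pos (Or.inr rfl), if_pos rfl, if_neg hk1]
      ring
    · rw [if_neg hk2, if_neg hk1, if_neg (by tauto)]
      ring

/-- (S1) automorphisms commuting with two elements -/
theorem stmtSem6 : StmtSem6 := by
  intro f h01 h12
  have hx : ∀ s, ∃ s', f * eps6 s * f⁻¹ = eps6 s' := by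
    intro s
    rw [eps6_apply, Phi_SD0 (inc6_mem s), conj_aut]
    obtain ⟨s', hs'⟩ := sur_eps6 (f ⟨pj (inc6 s), inc6_mem s⟩)
    exact ⟨s', hs'.symm⟩
  obtain ⟨u, hu, hug⟩ := p4c_std card5 (S := SD a1) big_SD SD_le SD_conj_mem ker_eps6 (x := f) hx
    (by rw [eps6_rr 0 1 (by decide)]; exact h01) (by rw [eps6_rr 1 2 (by decide)]; exact h12)
  refine ⟨⟨u, hu⟩, ?_⟩
  apply MulEquiv.ext
  intro y
  apply conj_inj6
  rw [← conj_aut, ← conj_aut]
  obtain ⟨s, hs⟩ := sur_eps6 y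
  rw [← hs]
  have h3 := hug s ⟨u * s.1 * u⁻¹, SD_conj_mem u hu s.1 s.2⟩ rfl
  rw [h3, eps6_apply, eps6_apply, ← map_inv, ← map_mul, ← map_mul]
  congr 1

end Vale.Agent.P240.R2.H306
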